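import Vale.Agent.P237.Petty.Cor.MidHigh.Bulk

/-!
# P237: the cell between six and twenty-seven halves over the dimension, pointwise in the bulk
-/

namespace Vale.Agent.P237.Petty.Cor.MidHigh

open Set
open Ident (half rate)
open Vale.Agent.P100.Bernstein

variable {p : ℕ}

theorem gamC_pos (p : ℕ) : 0 < gamC p := by
  have := Ident.b0_pos p
  unfold gamC
  positivity

theorem nuC_bounds (hp : 98 ≤ p) :
    133 / 200 + 152 / 100 * (1 / ((p : ℝ) + 1)) ≤ nuC p ∧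
      nuC p ≤ 133 / 200 + 175 / 100 * (1 / ((p : ℝ) + 1)) := by
  obtain ⟨h1, h2⟩ := muMin_bounds hp
  rw [nuC]
  constructor <;> linarith [mul_one_div (296 / 100 : ℝ) ((p : ℝ) + 1),
    mul_one_div (250 / 100 : ℝ) ((p : ℝ) + 1), mul_one_div (27 / 100 : ℝ) ((p : ℝ) + 1)]

/-- The reciprocal of the half circle between its Taylor polynomials. -/
theorem inv_arc_bounds {s : ℝ} (hs : s ∈ Ioo (0 : ℝ) 1) (hz : s ^ 2 ≤ 354 / 1000) :
    1 + 1 / 2 * s ^ 2 + 3 / 8 * (s ^ 2) ^ 2 + 5 / 16 * (s ^ 2) ^ 3 ≤ 1 / arc s ∧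
      1 / arc s ≤ 1 + 1 / 2 * s ^ 2 + 3 / 8 * (s ^ 2) ^ 2 + 5 / 16 * (s ^ 2) ^ 3 +
        41 / 100 * (s ^ 2) ^ 4 := by
  have hc : 0 < arc s := arc_pos ⟨by linarith [hs.1], hs.2⟩
  have hc2 : arc s ^ 2 = 1 - s ^ 2 := Real.sq_sqrt (by nlinarith [hs.1, hs.2])
  have hz0 : 0 ≤ s ^ 2 := sq_nonneg s
  obtain ⟨z, rfl⟩ : ∃ z, s ^ 2 = z := ⟨_, rfl⟩
  constructor
  · rw [le_div_iff₀ hc]
    refine (pow_le_pow_iff_left₀ (by positivity) zero_le_one two_ne_zero).1 ?_
    rw [mul_pow, hc2]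
    nlinarith [mul_nonneg (mul_nonneg hz0 hz0) (mul_nonneg hz0 hz0), pow_nonneg hz0 5,
      pow_nonneg hz0 6, pow_nonneg hz0 7]
  · rw [div_le_iff₀ hc]
    refine (pow_le_pow_iff_left₀ zero_le_one (by positivity) two_ne_zero).1 ?_
    rw [mul_pow, hc2]
    nlinarith [mul_nonneg (pow_nonneg hz0 4) (sub_nonneg.2 hz),
      mul_nonneg (pow_nonneg hz0 5) (sub_nonneg.2 hz), mul_nonneg (pow_nonneg hz0 6) (sub_nonneg.2 hz),
      mul_nonneg (pow_nonneg hz0 7) (sub_nonneg.2 hz),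
      mul_nonneg (pow_nonneg hz0 8) (sub_nonneg.2 hz)]

/-- The linear coefficient in `d` is `s Dh / c ^ 2`. -/
theorem potD_eq (hp : 98 ≤ p) {s : ℝ} (hs : s ∈ Ioo (0 : ℝ) 1) :
    cancelD p (nuC p) (potK p) potK' s = s * xDh.eval (pt p s) / (1 - s ^ 2) := by
  have hz := (pt_mem hp s).2.2.2
  have hc : 1 - s ^ 2 ≠ 0 := by nlinarith [hs.1, hs.2]
  have hb := (Ident.b0_pos p).ne'
  have h4 : ((p : ℝ) + 4) ≠ 0 := by positivity
  have e : sqCoef p + ((p : ℝ) + 4) * (nuC p - nuS p) =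
      ((p : ℝ) + 4) * (26 / 25 + 27 / 100 / ((p : ℝ) + 1)) := by
    rw [nuC, nuS, sqCoef]
    field_simp
    ring
  rw [cancelD, e, potRate, eq_div_iff hc]
  simp only [xDh, xLt, xC, xZ, pt, Expr.eval_sub, Expr.eval_mul, Expr.eval_add, Expr.eval_pow,
    Expr.eval_frac, Expr.eval_var, Expr.eval_ofNat, List.getD_cons_zero, List.getD_cons_succ, hz]
  have hm : ((p : ℝ) + 1) ≠ 0 := by positivity
  rw [potK, potK']
  push_cast
  field_simp
  ring

/-- The coefficient of `d ^ 2` from below. -/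
theorem potDD_ge (hp : 98 ≤ p) {s v : ℝ} (hs : s ∈ Ioo (0 : ℝ) 1) (hv : 0 < v) :
    xB.eval (pt p s) / s ^ 2 ≤ cancelDD p (nuC p) 1 potB potB' s v := by
  obtain ⟨hy, he, he', hz⟩ := pt_mem hp s
  obtain ⟨hn1, hn2⟩ := nuC_bounds hp
  have hn0 : 0 ≤ nuC p := by nlinarith
  have hs0 := hs.1.ne'
  have h1 : potB' s - potRate p s * potB s = 1 * ((p : ℝ) + 2 + 1 / s ^ 2) := (polePot_null p 1 hs).2
  rw [cancelDD, h1, div_le_iff₀ (pow_pos hs.1 2)]
  have h2 : 0 ≤ nuC p * (2 * 1 * (1 + 1) / v) * s ^ 2 := by positivity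
  have h3 := mul_le_mul_of_nonneg_right hn2
    (show 0 ≤ ((p : ℝ) + 4) * s ^ 2 by positivity)
  simp only [xB, xNh, xZ, pt, Expr.eval_sub, Expr.eval_mul, Expr.eval_add, Expr.eval_frac,
    Expr.eval_var, Expr.eval_ofNat, List.getD_cons_zero, List.getD_cons_succ, hz]
  push_cast
  have e : 1 * ((p : ℝ) + 2 + 1 / s ^ 2) * s ^ 2 = ((p : ℝ) + 1) * s ^ 2 + s ^ 2 + 1 := by
    field_simp
    ring
  nlinarith [e, h2, h3]

/-- The coefficient of `u ^ 2 / v` from below. -/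
theorem potUU_ge (hp : 98 ≤ p) {s v : ℝ} (hs : s ∈ Ioo (0 : ℝ) 1) (hz : s ^ 2 ≤ 354 / 1000)
    (hv : 0 < v) :
    4 * xNl.eval (pt p s) * xC.eval (pt p s) -
        52 / 25 * xPu.eval (pt p s) * ((2 * v + 1) / (2 * (v + 2))) ≤
      cancelUU p (gamC p) (nuC p) 1 s v := by
  obtain ⟨-, -, -, hz'⟩ := pt_mem hp s
  have hb := (Ident.b0_pos p).ne'
  have hm : ((p : ℝ) + 1) ≠ 0 := by positivity
  have hc : 0 < 1 - s ^ 2 := by linarith
  have e : gamC p * Ident.b0 p / ((p : ℝ) + 1) / arc s = 52 / 25 * (1 / arc s) := by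
    rw [gamC]; field_simp
  rw [cancelUU, e]
  simp only [xNl, xC, xPu, xP, xZ, pt, Expr.eval_sub, Expr.eval_mul, Expr.eval_add, Expr.eval_pow,
    Expr.eval_frac, Expr.eval_var, Expr.eval_ofNat, List.getD_cons_zero, List.getD_cons_succ, hz']
  push_cast
  have h1 := mul_le_mul_of_nonneg_right (nuC_bounds hp).1 hc.le
  have h2 := mul_le_mul_of_nonneg_right (inv_arc_bounds hs hz).2
    (show 0 ≤ (2 * v + 1) / (2 * (v + 2)) by positivity)
  linarith

/-- The coefficient of `u ^ 2 / v` decreases, and so does its quotient by `v` where it is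
nonnegative. -/
theorem frac_anti {a g v w : ℝ} (hg : 0 ≤ g) (hv : 0 < v) (hvw : v ≤ w) :
    a - g * ((2 * w + 1) / (2 * (w + 2))) ≤ a - g * ((2 * v + 1) / (2 * (v + 2))) := by
  have h : (2 * v + 1) / (2 * (v + 2)) ≤ (2 * w + 1) / (2 * (w + 2)) := by
    rw [div_le_div_iff₀ (by linarith) (by linarith)]
    nlinarith
  linarith [mul_le_mul_of_nonneg_left h hg]

/-- The quadratic in `u` of the bulk is nonnegative. -/
theorem bulk_quad_nonneg {e c B L Q0 N P sk v w C20 B1 B2 : ℝ} (he : 0 ≤ e) (hc : 0 < c)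
    (hB : 0 < B) (hP : 0 ≤ P) (hsk : 0 ≤ sk) (hv : 0 < v)
    (eC20 : C20 = B * (4 * N * c - 26 / 25 * P - sk) - c ^ 2)
    (eB1 : B1 = B * (8 * (w + 2) * N * c - 52 / 25 * P * (2 * w + 1)) -
      2 * w * (w + 2) * (B * sk + c ^ 2))
    (eB2 : B2 = B * (8 * (w + 2) * N * c - 52 / 25 * P * (2 * w + 1)) -
      2 * (w + 2) * (B * sk + c ^ 2))
    (hC20 : 0 < C20) (hP0 : c ^ 2 * L ^ 2 ≤ Q0 * C20) (hw : 1 ≤ w) (hvw : v ≤ w)
    (hhigh : (0 < B1 ∧ 2 * w * (w + 2) * c ^ 2 * L ^ 2 ≤ Q0 * B1) ∨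
      (0 ≤ L ∧ 0 ≤ Q0 ∧
        0 ≤ 2 * e ^ 2 * (w * (w + 2)) * Q0 + 8 * c ^ 2 * (w * (w + 2)) * e * L * (w - 1) +
          4 * c ^ 2 * B1 * (w - 1) ^ 2 ∧
        0 ≤ 2 * e ^ 2 * (w + 2) * Q0 + 8 * c ^ 2 * (w + 2) * e * L * (w - 1) +
          4 * c ^ 2 * B2 * (w - 1) ^ 2)) :
    0 ≤ e ^ 2 * Q0 + 4 * c ^ 2 * e * L * (v - 1) + 4 * c ^ 2 *
      (B * ((4 * N * c - 52 / 25 * P * ((2 * v + 1) / (2 * (v + 2)))) / v - sk) - c ^ 2) *
        (v - 1) ^ 2 := by
  have hg : 0 ≤ 52 / 25 * P := by positivity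
  -- a lower bound `K` of the coefficient gives the goal
  have lift : ∀ K : ℝ, B * ((4 * N * c - 52 / 25 * P * ((2 * v + 1) / (2 * (v + 2)))) / v - sk) -
      c ^ 2 ≥ K → 0 ≤ e ^ 2 * Q0 + 4 * c ^ 2 * e * L * (v - 1) + 4 * c ^ 2 * K * (v - 1) ^ 2 →
      0 ≤ e ^ 2 * Q0 + 4 * c ^ 2 * e * L * (v - 1) + 4 * c ^ 2 *
        (B * ((4 * N * c - 52 / 25 * P * ((2 * v + 1) / (2 * (v + 2)))) / v - sk) - c ^ 2) *
          (v - 1) ^ 2 := by
    intro K hK hq
    have := mul_le_mul_of_nonneg_left (mul_le_mul_of_nonneg_right hK (sq_nonneg (v - 1)))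
      (show 0 ≤ 4 * c ^ 2 by positivity)
    linarith
  have disc : ∀ K : ℝ, 0 < K → c ^ 2 * L ^ 2 ≤ Q0 * K →
      0 ≤ e ^ 2 * Q0 + 4 * c ^ 2 * e * L * (v - 1) + 4 * c ^ 2 * K * (v - 1) ^ 2 := by
    intro K hK hd
    refine quad_nonneg (by positivity) ?_
    have := mul_le_mul_of_nonneg_left hd (show 0 ≤ 16 * c ^ 2 * e ^ 2 by positivity)
    linear_combination this
  rcases le_or_gt v 1 with h1 | h1
  · refine lift C20 ?_ (disc C20 hC20 hP0)
    have h2 := frac_anti (a := 4 * N * c) hg hv h1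
    norm_num at h2
    have h3 : 0 ≤ 4 * N * c - 26 / 25 * P := by
      nlinarith [mul_nonneg hB.le hsk, sq_nonneg c]
    have h4 : 4 * N * c - 26 / 25 * P ≤
        (4 * N * c - 52 / 25 * P * ((2 * v + 1) / (2 * (v + 2)))) / v := by
      rw [le_div_iff₀ hv]
      nlinarith
    have := mul_le_mul_of_nonneg_left h4 hB.le
    rw [eC20]
    linarith
  have hw2 : 0 < 2 * (w + 2) := by linarith
  set Aw := 4 * N * c - 52 / 25 * P * ((2 * w + 1) / (2 * (w + 2))) with hAw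
  have eAw : 2 * (w + 2) * Aw = 8 * (w + 2) * N * c - 52 / 25 * P * (2 * w + 1) := by
    rw [hAw]; field_simp; ring
  have hanti := frac_anti (a := 4 * N * c) hg hv hvw
  -- the two lower bounds of the coefficient
  have hpos : 0 ≤ Aw → B * ((4 * N * c - 52 / 25 * P * ((2 * v + 1) / (2 * (v + 2)))) / v - sk) -
      c ^ 2 ≥ B1 / (2 * w * (w + 2)) := by
    intro hA
    have h2 : Aw / w ≤ (4 * N * c - 52 / 25 * P * ((2 * v + 1) / (2 * (v + 2)))) / v :=
      div_le_div₀ (hA.trans hanti) hanti hv hvw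
    have h3 := mul_le_mul_of_nonneg_left h2 hB.le
    have h4 : B1 / (2 * w * (w + 2)) = B * (Aw / w) - (B * sk + c ^ 2) := by
      rw [eB1, ← eAw]; field_simp
    rw [ge_iff_le, h4]
    linarith
  rcases hhigh with ⟨hB1, hd⟩ | ⟨hL, hQ, hE1, hE2⟩
  · have hA : 0 ≤ Aw := by
      by_contra hA
      nlinarith [mul_neg_of_pos_of_neg (mul_pos hB hw2) (not_le.1 hA), mul_nonneg hB.le hsk,
        mul_pos (show 0 < w by linarith) hw2, sq_nonneg c]
    refine lift _ (hpos hA) (disc _ (by positivity) ?_)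
    rw [mul_div_assoc', le_div_iff₀ (by positivity)]
    linarith
  have hu : 0 ≤ v - 1 := by linarith
  have hb : 0 ≤ 4 * c ^ 2 * e * L := by positivity
  have ha : 0 ≤ e ^ 2 * Q0 := by positivity
  rcases le_or_gt 0 Aw with hA | hA
  · refine lift _ (hpos hA) (quad_nonneg_on ha hb hu (sub_le_sub_right hvw 1) ?_)
    refine nonneg_of_mul_nonneg_left (b := 2 * w * (w + 2)) ?_ (by positivity)
    have hw0 : w ≠ 0 := by linarith
    refine le_of_le_of_eq hE1 ?_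
    field_simp
    ring
  · refine lift (B2 / (2 * (w + 2))) ?_ (quad_nonneg_on ha hb hu (sub_le_sub_right hvw 1) ?_)
    · have h2 : Aw ≤ (4 * N * c - 52 / 25 * P * ((2 * v + 1) / (2 * (v + 2)))) / v := by
        rw [le_div_iff₀ hv]
        nlinarith [hanti, mul_nonneg (show 0 ≤ -Aw by linarith) hu]
      have h3 := mul_le_mul_of_nonneg_left h2 hB.le
      have h4 : B2 / (2 * (w + 2)) = B * Aw - (B * sk + c ^ 2) := by
        rw [eB2, ← eAw]; field_simp
      rw [ge_iff_le, h4]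
      linarith
    · refine nonneg_of_mul_nonneg_left (b := 2 * (w + 2)) ?_ (by positivity)
      refine le_of_le_of_eq hE2 ?_
      field_simp
      ring

/-- The quadratic of the bulk at a state. -/
theorem bulk_quad (hp : 98 ≤ p) {ell s t a r q : ℝ} (h : FlatState p ell s t a r q) (h0 : 0 ≤ ell)
    (hell : ell ≤ 27 / 2 / ((p : ℝ) + 1)) (hs : s ^ 2 ≤ 354 / 1000) :
    0 ≤ (1 / ((p : ℝ) + 1)) ^ 2 * xQ0.eval (pt p s) +
      4 * xC.eval (pt p s) ^ 2 * (1 / ((p : ℝ) + 1)) * xL.eval (pt p s) * (1 / r - 1) +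
      4 * xC.eval (pt p s) ^ 2 * (xB.eval (pt p s) * ((4 * xNl.eval (pt p s) * xC.eval (pt p s) -
          52 / 25 * xPu.eval (pt p s) * ((2 * (1 / r) + 1) / (2 * (1 / r + 2)))) / (1 / r) -
        xSk.eval (pt p s)) - xC.eval (pt p s) ^ 2) * (1 / r - 1) ^ 2 := by
  obtain ⟨hy, he, he', hz⟩ := pt_mem hp s
  have hv : 0 < 1 / r := by have := h.state.rate_pos; positivity
  have hc : 0 < xC.eval (pt p s) := by
    simp only [xC, xZ, pt, Expr.eval_sub, Expr.eval_mul, Expr.eval_ofNat, Expr.eval_var,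
      List.getD_cons_zero, List.getD_cons_succ, hz]
    push_cast
    linarith
  have hP : 0 ≤ xPu.eval (pt p s) := by
    simp only [xPu, xP, xZ, pt, Expr.eval_add, Expr.eval_mul, Expr.eval_pow, Expr.eval_frac,
      Expr.eval_ofNat, Expr.eval_var, List.getD_cons_zero, List.getD_cons_succ, hz]
    push_cast
    positivity
  have hsk : 0 ≤ xSk.eval (pt p s) := by
    simp only [xSk, xZ, pt, Expr.eval_mul, Expr.eval_pow, Expr.eval_frac, Expr.eval_var,
      List.getD_cons_zero, List.getD_cons_succ, hz]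
    push_cast
    positivity
  have hB := nonneg_all cert_B cert_B_far hp hs
  have hC20 := nonneg_all cert_C20 cert_C20_far hp hs
  have hP0 := nonneg_all cert_P0 cert_P0_far hp hs
  simp only [xP0, Expr.eval_sub, Expr.eval_frac, Expr.eval_mul, Expr.eval_pow] at hB hC20 hP0
  have eC20 : xC20.eval (pt p s) = xB.eval (pt p s) * (4 * xNl.eval (pt p s) * xC.eval (pt p s) -
      26 / 25 * xPu.eval (pt p s) - xSk.eval (pt p s)) - xC.eval (pt p s) ^ 2 := by
    simp [xC20]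
  have eB1 : ∀ w : Expr, (xB21 w).eval (pt p s) = xB.eval (pt p s) *
      (8 * (w.eval (pt p s) + 2) * xNl.eval (pt p s) * xC.eval (pt p s) -
        52 / 25 * xPu.eval (pt p s) * (2 * w.eval (pt p s) + 1)) -
      2 * w.eval (pt p s) * (w.eval (pt p s) + 2) *
        (xB.eval (pt p s) * xSk.eval (pt p s) + xC.eval (pt p s) ^ 2) := fun w => by simp [xB21]
  have eB2 : ∀ w : Expr, (xB22 w).eval (pt p s) = xB.eval (pt p s) *
      (8 * (w.eval (pt p s) + 2) * xNl.eval (pt p s) * xC.eval (pt p s) -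
        52 / 25 * xPu.eval (pt p s) * (2 * w.eval (pt p s) + 1)) -
      2 * (w.eval (pt p s) + 2) *
        (xB.eval (pt p s) * xSk.eval (pt p s) + xC.eval (pt p s) ^ 2) := fun w => by simp [xB22]
  push_cast at hB hC20
  rcases le_total (((p : ℝ) + 1) * s ^ 2) (4 / 5) with h1 | h1
  · have g : ∀ {a : Expr}, onBox a 0 4 5 .leaf = true → 0 ≤ a.eval (pt p s) :=
      fun hc => onBox_nonneg hc (by push_cast; linarith) (by push_cast; linarith) he.le he'
    have hB1 := g cert_B21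
    have hd := g cert_P1
    simp only [xP1, Expr.eval_sub, Expr.eval_mul, Expr.eval_add, Expr.eval_pow, Expr.eval_frac,
      Expr.eval_ofNat] at hB1 hd
    push_cast at hB1 hd
    have hw : 1 ≤ xV.eval (pt p s) := by
      simp only [xV, xBeta, pt, Expr.eval_add, Expr.eval_mul, Expr.eval_frac, Expr.eval_var,
        Expr.eval_ofNat, List.getD_cons_zero, List.getD_cons_succ]
      push_cast
      exact le_add_of_nonneg_right (by positivity)
    exact bulk_quad_nonneg he.le hc (by linarith) hP hsk hv eC20 (eB1 xV) (eB2 xV) (by linarith)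
      (by linarith) hw (inv_rate_le_low hp h h0 hell (by linarith))
      (Or.inl ⟨by linarith, by linarith⟩)
  · have hL := nonneg_high cert_L cert_L_far hp hs h1
    have hQ := nonneg_high cert_Q0 cert_Q0_far hp hs h1
    obtain ⟨w, hw, hw1, hE1, hE2⟩ := vBound hp h h0 hell hs h1
    simp only [xEnd, xEnd2, Expr.eval_sub, Expr.eval_mul, Expr.eval_add, Expr.eval_pow,
      Expr.eval_ofNat] at hE1 hE2
    simp only [pt, Expr.eval_var, List.getD_cons_succ, List.getD_cons_zero] at hE1 hE2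
    push_cast at hE1 hE2
    exact bulk_quad_nonneg he.le hc (by linarith) hP hsk hv eC20 (eB1 w) (eB2 w) (by linarith)
      (by linarith) hw1 hw (Or.inr ⟨hL, hQ, hE1, hE2⟩)

/-- In the bulk the cancelled cell is at least `ell wS - e ^ 2 R (y)`. -/
theorem bulk_pointwise (hp : 98 ≤ p) {ell s t a r q : ℝ} (h : FlatState p ell s t a r q)
    (h0 : 0 ≤ ell) (hell : ell ≤ 27 / 2 / ((p : ℝ) + 1)) (hs : s ^ 2 ≤ 354 / 1000) :
    ell * wS p (arc s) - (1 / ((p : ℝ) + 1)) ^ 2 * xR.eval (pt p s) ≤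
      cancelExpr p (gamC p) (nuC p) ell (fun s t => s + 1 * (s - t)) (fun _ _ => 1 + 1)
        (fun _ _ => -1) (quadPot (potK p) potB) (quadPotS (potK p) potK' potB potB')
        (quadPotT (potK p) potB) s t a r := by
  have hq := bulk_quad hp h h0 hell hs
  have hm0 := (pt_mem hp s).2.2.2
  have hsm := h.state.s_mem
  have hv : 0 < 1 / r := by have := h.state.rate_pos; positivity
  refine le_trans ?_ (cancelExpr_quad_ge (gamC_pos p).le (potK p) potK' potB potB' h)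
  have hU := mul_le_mul_of_nonneg_right (potUU_ge hp hsm hs hv)
    (show 0 ≤ (1 / r - 1) ^ 2 / (1 / r) by positivity)
  have hD := mul_le_mul_of_nonneg_right (potDD_ge hp hsm hv) (sq_nonneg (t - s))
  rw [potD_eq hp hsm]
  -- the residual of the reciprocal
  obtain ⟨hl, hh⟩ := inv_arc_bounds hsm hs
  set ε := cancelU p (gamC p) (potK p) s - 1 / ((p : ℝ) + 1) * xLt.eval (pt p s) with hε
  have hb := (Ident.b0_pos p).ne'
  have hm : ((p : ℝ) + 1) ≠ 0 := by positivity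
  have eε : ε = 52 / 25 * (1 / arc s -
      (1 + 1 / 2 * s ^ 2 + 3 / 8 * (s ^ 2) ^ 2 + 5 / 16 * (s ^ 2) ^ 3)) := by
    rw [hε, cancelU, potK, gamC]
    simp only [xLt, pt, Expr.eval_add, Expr.eval_mul, Expr.eval_frac, Expr.eval_var,
      List.getD_cons_zero]
    push_cast
    field_simp
    ring
  have hε0 : 0 ≤ ε := by rw [eε]; linarith
  have hε1 : ε ≤ 52 / 25 * (41 / 100 * (s ^ 2) ^ 4) := by rw [eε]; linarith
  have hsk : xSk.eval (pt p s) = 533 / 1250 * (s ^ 2) ^ 4 := by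
    simp only [xSk, xZ, pt, Expr.eval_mul, Expr.eval_pow, Expr.eval_frac, Expr.eval_var,
      List.getD_cons_zero, List.getD_cons_succ, hm0]
    norm_num
  have h3 : -(xSk.eval (pt p s) * (1 + (1 / r - 1) ^ 2)) ≤ ε * (1 / r - 1) := by
    rw [hsk]
    nlinarith [sq_nonneg (1 / r - 1 + 1), mul_nonneg (sub_nonneg.2 hε1)
      (add_nonneg zero_le_one (sq_nonneg (1 / r - 1))),
      mul_nonneg hε0 (sq_nonneg (1 / r - 1 + 1))]
  have hs0 := hsm.1.ne'
  have hc : 1 - s ^ 2 ≠ 0 := by nlinarith [hsm.1, hsm.2]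
  have hC : xC.eval (pt p s) = 1 - s ^ 2 := by
    simp only [xC, xZ, pt, Expr.eval_sub, Expr.eval_mul, Expr.eval_ofNat, Expr.eval_var,
      List.getD_cons_zero, List.getD_cons_succ, hm0]
    norm_num
  have hB : 0 < xB.eval (pt p s) := by
    have := nonneg_all cert_B cert_B_far hp hs
    simp only [Expr.eval_sub, Expr.eval_frac] at this
    push_cast at this
    linarith
  have key := square_le (lt := xLt.eval (pt p s))
    (σ := 533 / 1250 * ((((p : ℝ) + 1) * s ^ 2) ^ 4 * (1 / ((p : ℝ) + 1)) ^ 2))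
    (R := xR.eval (pt p s)) (u := 1 / r - 1) (δ := (t - s) / s)
    (A := (4 * xNl.eval (pt p s) * xC.eval (pt p s) -
          52 / 25 * xPu.eval (pt p s) * ((2 * (1 / r) + 1) / (2 * (1 / r + 2)))) / (1 / r))
    hB (by rw [hC]; linarith : (0 : ℝ) < xC.eval (pt p s))
    (L := xL.eval (pt p s)) (y := ((p : ℝ) + 1) * s ^ 2) (Dh := xDh.eval (pt p s))
    (by simp [xL, pt])
    (by simp [xQ0, pt])
    (by rw [hsk]; nth_rw 1 [← hm0]; ring) hq
  have eD : (1 / ((p : ℝ) + 1) * (((p : ℝ) + 1) * s ^ 2) * xDh.eval (pt p s) / (1 - s ^ 2) -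
      2 * (1 - s ^ 2) * (1 / r - 1)) * ((t - s) / s) =
      s * xDh.eval (pt p s) / (1 - s ^ 2) * (t - s) +
        cancelUD (nuC p) 1 potB s (1 / r) * ((1 / r - 1) * (t - s)) := by
    rw [cancelUD, potB]
    field_simp
    ring
  rw [hC] at key hU
  rw [eD] at key
  have eA : (4 * xNl.eval (pt p s) * (1 - s ^ 2) -
        52 / 25 * xPu.eval (pt p s) * ((2 * (1 / r) + 1) / (2 * (1 / r + 2)))) / (1 / r) *
        (1 / r - 1) ^ 2 =
      (4 * xNl.eval (pt p s) * (1 - s ^ 2) -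
        52 / 25 * xPu.eval (pt p s) * ((2 * (1 / r) + 1) / (2 * (1 / r + 2)))) *
        ((1 / r - 1) ^ 2 / (1 / r)) := by ring
  have eB : xB.eval (pt p s) * ((t - s) / s) ^ 2 = xB.eval (pt p s) / s ^ 2 * (t - s) ^ 2 := by
    ring
  have hUe : cancelU p (gamC p) (potK p) s * (1 / r - 1) =
      1 / ((p : ℝ) + 1) * xLt.eval (pt p s) * (1 / r - 1) + ε * (1 / r - 1) := by
    rw [hε]; ring
  linarith

end Vale.Agent.P237.Petty.Cor.MidHigh
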