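import Vale.Agent.P237.Petty.Cor.MidHigh.Point

/-!
# P237: the cell between six and twenty-seven halves over the dimension, beyond the bulk

For `7 / 20 ≤ s ^ 2` the excess of the shadow is only bounded below by `-gam b / arc s`; the rest
of the cancelled cell is at least `-120 m / (1 - s ^ 2) ^ 2`.
-/

namespace Vale.Agent.P237.Petty.Cor.MidHigh

open Set
open Ident (half rate)
open Vale.Agent.P100.Bernstein

variable {p : ℕ}

theorem half_le_one (k : ℕ) : half k ≤ 1 := by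
  refine (intervalIntegral.integral_mono_on zero_le_one
    ((continuous_arc.pow k).intervalIntegrable _ _) intervalIntegrable_const
    fun x hx => pow_le_one₀ (Real.sqrt_nonneg _) (Real.sqrt_le_one.2 (by nlinarith))).trans
    (le_of_eq ?_)
  simp

/-- Beyond the bulk `v ≤ 2 m / c ^ 2`. -/
theorem inv_rate_le_crude (hp : 98 ≤ p) {ell s t a r q : ℝ} (h : FlatState p ell s t a r q)
    (h0 : 0 ≤ ell) (hell : ell ≤ 27 / 2 / ((p : ℝ) + 1)) (hs : 7 / 20 ≤ s ^ 2) :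
    1 / r ≤ 2 * ((p : ℝ) + 1) / (1 - s ^ 2) := by
  have hpp : (98 : ℝ) ≤ p := by exact_mod_cast hp
  obtain ⟨m, hm, hme⟩ : ∃ m : ℝ, 99 ≤ m ∧ (p : ℝ) + 1 = m := ⟨_, by linarith, rfl⟩
  have hsm := h.state.s_mem
  have hc := h.state.arc_pos'
  have hc2 : arc s ^ 2 = 1 - s ^ 2 := Real.sq_sqrt (by nlinarith [hsm.1, hsm.2])
  have hz : 0 < 1 - s ^ 2 := hc2 ▸ pow_pos hc 2
  rw [hme] at hell ⊢
  have hE := exp_ell_le hm h0 hell
  have hE' : 1 + 1452 / 100 / m ≤ 115 / 100 := by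
    have : 1452 / 100 / m ≤ 1452 / 100 / 99 := by gcongr
    linarith
  have hT := circHigh_ge_sq (p := p) (Ioo_subset_Icc_self hsm)
  have hpos : 0 < arc s ^ (p + 3) * (s / (((p : ℝ) + 3) * s ^ 2 + 1)) := by
    have := hsm.1
    positivity
  refine (h.inv_rate_le_base_max ⟨le_rfl, hsm.1.le⟩).trans (max_le ?_ ?_)
  · refine (hE.trans hE').trans ?_
    rw [le_div_iff₀ hz]
    nlinarith
  · have h1 : Lift.circLow p 0 = 0 := by simp [Lift.circLow]
    have h2 : Lift.circHigh p 0 ≤ 1 := by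
      simpa [Lift.circHigh, half, arc] using half_le_one (p + 1)
    have h3 : 0 ≤ Lift.circHigh p 0 := intervalIntegral.integral_nonneg zero_le_one fun v _ =>
      pow_nonneg (Real.sqrt_nonneg _) _
    rw [h1, mul_zero, add_zero, show arc 0 = 1 by simp [arc], one_pow, one_mul]
    refine (div_le_div₀ (by positivity) (mul_le_mul (mul_le_mul_of_nonneg_right (hE.trans hE')
      (pow_nonneg hc.le _)) h2 h3 (by positivity)) hpos hT).trans ?_
    rw [show arc s ^ (p + 3) = arc s ^ (p + 1) * (1 - s ^ 2) by rw [← hc2]; ring,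
      show (p : ℝ) + 3 = m + 2 by linarith, div_le_div_iff₀ (mul_pos (mul_pos (pow_pos hc _) hz) (div_pos hsm.1 (by positivity))) hz]
    have hs0 : 59 / 100 ≤ s := by nlinarith [hsm.1]
    have hs1 : s ≤ 1 := hsm.2.le
    have key : 115 / 100 * ((m + 2) * s ^ 2 + 1) ≤ 2 * m * s := by
      nlinarith [mul_nonneg (show (0 : ℝ) ≤ m + 2 by linarith) (mul_nonneg hsm.1.le (sub_nonneg.2 hs1))]
    have := mul_le_mul_of_nonneg_left key (mul_nonneg (pow_nonneg hc.le (p + 1)) hz.le)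
    have hne : (m + 2) * s ^ 2 + 1 ≠ 0 := by positivity
    field_simp at this ⊢
    linarith

/-- The part of the coefficient of `d` beyond the bulk. -/
theorem dh_bound {y z e D : ℝ} (hy : 34 ≤ y) (hz0 : 0 ≤ z) (hz1 : z ≤ 1) (he0 : 0 ≤ e)
    (he : e ≤ 1 / 99)
    (hD : D = (1 - z) * (-104 / 25 * (1 / 2 + 3 / 4 * z + 15 / 16 * z ^ 2) - 11 / 25 - 81 / 50 * e) +
      52 / 25 * (y * (3 / 2 + 3 / 8 * z + 5 / 16 * z ^ 2)) - 27 / 50 * (1 - z) -
      (-13 / 20 + 29 / 10 * y)) :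
    D ^ 2 ≤ (2 * y) ^ 2 := by
  have hz2 : z ^ 2 ≤ 1 := by nlinarith
  have h1 : 0 ≤ y * (z ^ 2) := by positivity
  refine sq_le_sq' ?_ ?_
  · rw [hD]
    nlinarith [mul_nonneg (show 0 ≤ 1 - z by linarith) (show 0 ≤ 1 / 99 - e by linarith),
      mul_nonneg (show (0 : ℝ) ≤ y by linarith) hz0, mul_nonneg hz0 (show 0 ≤ 1 - z by linarith)]
  · rw [hD]
    nlinarith [mul_nonneg (show 0 ≤ 1 - z by linarith) he0,
      mul_nonneg (show (0 : ℝ) ≤ y by linarith) (show 0 ≤ 1 - z by linarith),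
      mul_nonneg (show (0 : ℝ) ≤ y by linarith) (show 0 ≤ 1 - z ^ 2 by linarith),
      mul_nonneg hz0 (show 0 ≤ 1 - z by linarith)]

/-- The coefficient of `(d / s) ^ 2` beyond the bulk. -/
theorem b_bound {y z e : ℝ} (hy : 34 ≤ y) (hz0 : 0 ≤ z) (hz1 : z ≤ 1) (he : e ≤ 1 / 99) :
    y / 4 ≤ 1 + y + z - (133 / 200 + 175 / 100 * e) * (y + 3 * z) := by
  have := mul_le_mul_of_nonneg_right
    (show 133 / 200 + 175 / 100 * e ≤ (683 : ℝ) / 1000 by linarith)
    (show 0 ≤ y + 3 * z by linarith)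
  linarith

/-- The potential is bounded. -/
theorem k_bound {z e : ℝ} (hz0 : 0 ≤ z) (hz1 : z ≤ 1) (he0 : 0 ≤ e) (he : e ≤ 1 / 99) :
    |-(52 / 25) * (1 + z / 2 + 3 / 8 * z ^ 2 + 5 / 16 * z ^ 3) +
      (-(13 / 20) * e + 29 / 10 * z)| ≤ 5 := by
  have h2 : z ^ 2 ≤ z := by nlinarith
  have h3 : z ^ 3 ≤ z := by nlinarith
  have h20 := pow_nonneg hz0 2
  have h30 := pow_nonneg hz0 3
  rw [abs_le]
  constructor <;> linarith

/-- The estimate beyond the bulk, in abstract variables. -/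
theorem tail_alg {m y z c B D k u δ : ℝ} (hm : 99 ≤ m) (hy : y = m * z) (hz : 7 / 20 ≤ z)
    (hc : 0 < c) (hcz : c = 1 - z) (hB : y / 4 ≤ B) (hD : D ^ 2 ≤ (2 * y) ^ 2) (hk : |k| ≤ 5)
    (hu : |u| ≤ 2 * m / c) :
    -(110 * m / c ^ 2) ≤ k * u + (z * D / c - 2 * c * u) * δ + B * δ ^ 2 := by
  have hz1 : z ≤ 1 := by linarith
  have hy0 : 0 < y := by rw [hy]; positivity
  have hB0 : 0 < B := by linarith
  have h1 : -((z * D / c - 2 * c * u) ^ 2 / (4 * B)) ≤
      (z * D / c - 2 * c * u) * δ + B * δ ^ 2 := by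
    have := quad_vertex_le (l := z * D / c - 2 * c * u) (u := δ) hB0
    rwa [neg_div] at this
  have h2 : (z * D / c - 2 * c * u) ^ 2 / (4 * B) ≤ 2 * ((z * D / c) ^ 2 + (2 * c * u) ^ 2) / y := by
    refine div_le_div₀ (by positivity) ?_ hy0 (by linarith)
    nlinarith [sq_nonneg (z * D / c + 2 * c * u)]
  have hu2 : (c * u) ^ 2 ≤ (2 * m) ^ 2 := by
    refine sq_le_sq.2 ?_
    rw [abs_mul, abs_of_pos hc, abs_of_pos (show (0 : ℝ) < 2 * m by linarith), mul_comm]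
    exact (le_div_iff₀ hc).1 hu
  have h3 : 2 * ((z * D / c) ^ 2 + (2 * c * u) ^ 2) / y ≤ 100 * m / c ^ 2 := by
    rw [div_le_div_iff₀ hy0 (by positivity),
      show 2 * ((z * D / c) ^ 2 + (2 * c * u) ^ 2) * c ^ 2 =
        2 * z ^ 2 * D ^ 2 + 8 * c ^ 2 * (c * u) ^ 2 by field_simp; ring]
    have a1 := mul_le_mul_of_nonneg_left hD (show 0 ≤ 2 * z ^ 2 by positivity)
    have a2 := mul_le_mul_of_nonneg_left hu2 (show 0 ≤ 8 * c ^ 2 by positivity)
    have a3 : c ^ 2 ≤ 1 := by nlinarith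
    have a4 : z ^ 2 ≤ 1 := by nlinarith
    subst hy
    nlinarith [mul_le_mul_of_nonneg_left a3 (sq_nonneg m), mul_le_mul_of_nonneg_left a4
      (mul_nonneg (sq_nonneg m) (sq_nonneg z)), mul_nonneg (sq_nonneg m) (sub_nonneg.2 hz),
      mul_nonneg (sq_nonneg m) (sub_nonneg.2 hz1)]
  have h4 : -(10 * m / c ^ 2) ≤ k * u := by
    have hku : |k * u| ≤ 5 * (2 * m / c) := by
      rw [abs_mul]; exact mul_le_mul hk hu (abs_nonneg _) (by norm_num)
    have : 5 * (2 * m / c) ≤ 10 * m / c ^ 2 := by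
      rw [mul_div_assoc', div_le_div_iff₀ hc (by positivity)]
      nlinarith [mul_nonneg (mul_nonneg (show (0 : ℝ) ≤ m by linarith) hc.le)
        (show 0 ≤ 1 - c by linarith)]
    linarith [neg_abs_le (k * u)]
  have : 110 * m / c ^ 2 = 100 * m / c ^ 2 + 10 * m / c ^ 2 := by ring
  linarith

/-- Beyond the bulk the cancelled cell is at least `ell wS - 113 m / c ^ 4`. -/
theorem tail_pointwise (hp : 98 ≤ p) {ell s t a r q : ℝ} (h : FlatState p ell s t a r q)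
    (h0 : 0 ≤ ell) (hell : ell ≤ 27 / 2 / ((p : ℝ) + 1)) (hs : 7 / 20 ≤ s ^ 2) :
    ell * wS p (arc s) - 113 * ((p : ℝ) + 1) / (1 - s ^ 2) ^ 2 ≤
      cancelExpr p (gamC p) (nuC p) ell (fun s t => s + 1 * (s - t)) (fun _ _ => 1 + 1)
        (fun _ _ => -1) (quadPot (potK p) potB) (quadPotS (potK p) potK' potB potB')
        (quadPotT (potK p) potB) s t a r := by
  have hpp : (98 : ℝ) ≤ p := by exact_mod_cast hp
  obtain ⟨hy, he, he', hz⟩ := pt_mem hp s
  have hsm := h.state.s_mem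
  have hc := h.state.arc_pos'
  have hc2 : arc s ^ 2 = 1 - s ^ 2 := Real.sq_sqrt (by nlinarith [hsm.1, hsm.2])
  have hcz : 0 < 1 - s ^ 2 := hc2 ▸ pow_pos hc 2
  have hv : 0 < 1 / r := by have := h.state.rate_pos; positivity
  have hb := Ident.b0_pos p
  obtain ⟨hn1, hn2⟩ := nuC_bounds hp
  have hn0 : 0 ≤ nuC p := by nlinarith
  have hg := gamC_pos p
  -- the shadow
  have e1 : cancelExpr p (gamC p) (nuC p) ell (fun s t => s + 1 * (s - t)) (fun _ _ => 1 + 1)
        (fun _ _ => -1) (quadPot (potK p) potB) (quadPotS (potK p) potK' potB potB')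
        (quadPotT (potK p) potB) s t a r =
      cancelExpr p 0 (nuC p) ell (fun s t => s + 1 * (s - t)) (fun _ _ => 1 + 1)
        (fun _ _ => -1) (quadPot (potK p) potB) (quadPotS (potK p) potK' potB potB')
        (quadPotT (potK p) potB) s t a r + gamC p * Ident.b0 p * (1 / a - 1 / arc s) := by
    simp only [cancelExpr]; ring
  have h1 := cancelExpr_quad_ge (nu := nuC p) (ell := ell) (g := 1) le_rfl (potK p) potK' potB
    potB' h
  rw [e1]
  have hG : gamC p * Ident.b0 p = 52 / 25 * ((p : ℝ) + 1) := by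
    rw [gamC, div_mul_cancel₀ _ hb.ne']
  have hc4 : 1 / arc s ≤ 1 / (1 - s ^ 2) ^ 2 := by
    refine one_div_le_one_div_of_le (by positivity) ?_
    rw [← hc2, ← pow_mul]
    exact pow_le_of_le_one hc.le (Real.sqrt_le_one.2 (by nlinarith)) (by norm_num)
  have hgam : -(52 / 25 * ((p : ℝ) + 1) / (1 - s ^ 2) ^ 2) ≤
      gamC p * Ident.b0 p * (1 / a - 1 / arc s) := by
    rw [hG]
    have := mul_le_mul_of_nonneg_left hc4 (show 0 ≤ 52 / 25 * ((p : ℝ) + 1) by positivity)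
    rw [mul_one_div (52 / 25 * ((p : ℝ) + 1)) ((1 - s ^ 2) ^ 2)] at this
    nlinarith [show 0 ≤ 52 / 25 * ((p : ℝ) + 1) * (1 / a) from
      mul_nonneg (by positivity) (one_div_nonneg.2 h.state.pos.le)]
  -- the quadratic
  have hU0 : 0 ≤ cancelUU p 0 (nuC p) 1 s (1 / r) * ((1 / r - 1) ^ 2 / (1 / r)) := by
    have : 0 ≤ 2 * nuC p * (1 + 1) * (1 - s ^ 2) := by positivity
    simp only [cancelUU, zero_mul, zero_div, sub_zero]
    positivity
  have hD := mul_le_mul_of_nonneg_right (potDD_ge hp hsm hv) (sq_nonneg (t - s))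
  rw [potD_eq hp hsm, cancelU] at h1
  simp only [zero_mul, zero_div, zero_add] at h1
  have hz1 : s ^ 2 ≤ 1 := by linarith
  have hy34 : 34 ≤ ((p : ℝ) + 1) * s ^ 2 := by
    nlinarith [mul_le_mul (show (99 : ℝ) ≤ (p : ℝ) + 1 by linarith) hs (by norm_num)
      (show (0 : ℝ) ≤ (p : ℝ) + 1 by linarith)]
  have key := tail_alg (m := (p : ℝ) + 1) (y := ((p : ℝ) + 1) * s ^ 2) (z := s ^ 2)
    (c := 1 - s ^ 2) (B := xB.eval (pt p s)) (D := xDh.eval (pt p s)) (k := potK p s)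
    (u := 1 / r - 1) (δ := (t - s) / s) (by linarith) rfl hs hcz rfl ?_ ?_ ?_ ?_
  · have eD : (s ^ 2 * xDh.eval (pt p s) / (1 - s ^ 2) - 2 * (1 - s ^ 2) * (1 / r - 1)) *
        ((t - s) / s) = s * xDh.eval (pt p s) / (1 - s ^ 2) * (t - s) +
          cancelUD (nuC p) 1 potB s (1 / r) * ((1 / r - 1) * (t - s)) := by
      have := hsm.1.ne'
      rw [cancelUD, potB]
      field_simp
      ring
    have eB : xB.eval (pt p s) * ((t - s) / s) ^ 2 = xB.eval (pt p s) / s ^ 2 * (t - s) ^ 2 := by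
      ring
    rw [eD, eB] at key
    have h113 : 113 * ((p : ℝ) + 1) / (1 - s ^ 2) ^ 2 = 110 * ((p : ℝ) + 1) / (1 - s ^ 2) ^ 2 +
        52 / 25 * ((p : ℝ) + 1) / (1 - s ^ 2) ^ 2 +
        23 / 25 * ((p : ℝ) + 1) / (1 - s ^ 2) ^ 2 := by ring
    have : 0 ≤ 23 / 25 * ((p : ℝ) + 1) / (1 - s ^ 2) ^ 2 := by positivity
    linarith
  · simp only [xB, xNh, xZ, pt, Expr.eval_sub, Expr.eval_mul, Expr.eval_add, Expr.eval_frac,
      Expr.eval_var, Expr.eval_ofNat, List.getD_cons_zero, List.getD_cons_succ, hz]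
    push_cast
    exact b_bound hy34 (sq_nonneg s) hz1 he'
  · refine dh_bound (z := s ^ 2) (e := 1 / ((p : ℝ) + 1)) hy34 (sq_nonneg s) hz1 he.le he' ?_
    simp only [xDh, xLt, xC, xZ, pt, Expr.eval_sub, Expr.eval_mul, Expr.eval_add, Expr.eval_pow,
      Expr.eval_frac, Expr.eval_var, Expr.eval_ofNat, List.getD_cons_zero, List.getD_cons_succ, hz]
    norm_num
  · refine le_of_eq_of_le (congrArg abs ?_) (k_bound (sq_nonneg s) hz1 he.le he')
    rw [potK]
    ring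
  · have hu := inv_rate_le_crude hp h h0 hell hs
    have : 1 ≤ 2 * ((p : ℝ) + 1) / (1 - s ^ 2) := by
      rw [le_div_iff₀ hcz]; linarith [sq_nonneg s]
    rw [abs_le]
    constructor <;> linarith

end Vale.Agent.P237.Petty.Cor.MidHigh
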