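import Vale.Agent.P237.Petty.Cor.MidHigh.Certs
import Vale.Agent.P237.Petty.Cor.MillsUp
import Vale.Agent.P237.Petty.Cor.Bridge

/-!
# P237: the cell between six and twenty-seven halves over the dimension, in the bulk

For `100 ≤ p + 2` and `s ^ 2 ≤ 7 / 20` the cancelled cell is at least `ell wS - e ^ 2 R (y)`.
-/

namespace Vale.Agent.P237.Petty.Cor.MidHigh

open Set
open Ident (half rate)
open Vale.Agent.P100.Bernstein

variable {p : ℕ}

/-- The multiplier of the shadow. -/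
noncomputable def gamC (p : ℕ) : ℝ := 52 / 25 * ((p : ℝ) + 1) / Ident.b0 p

/-- The multiplier of the Fisher excess. -/
noncomputable def nuC (p : ℕ) : ℝ :=
  26 / 25 + 27 / 100 / ((p : ℝ) + 1) - Ident.muMin p / 2

/-- The linear coefficient of the potential. -/
noncomputable def potK (p : ℕ) (s : ℝ) : ℝ :=
  -(52 / 25) * (1 + s ^ 2 / 2 + 3 / 8 * s ^ 4 + 5 / 16 * s ^ 6) +
    (-(13 / 20) / ((p : ℝ) + 1) + 29 / 10 * s ^ 2)

/-- Its derivative. -/
noncomputable def potK' (s : ℝ) : ℝ :=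
  s * (-(52 / 25) * (1 + 3 / 2 * s ^ 2 + 15 / 8 * s ^ 4) + 29 / 5)

/-- The quadratic coefficient of the potential. -/
noncomputable def potB (s : ℝ) : ℝ := -1 * (1 - s ^ 2) / s

/-- Its derivative. -/
noncomputable def potB' (s : ℝ) : ℝ := 1 * (1 + 1 / s ^ 2)

theorem hasDerivAt_potK (p : ℕ) (s : ℝ) : HasDerivAt (potK p) (potK' s) s := by
  refine (((((((hasDerivAt_pow 2 s).div_const 2).const_add 1).add
    ((hasDerivAt_pow 4 s).const_mul (3 / 8))).add
    ((hasDerivAt_pow 6 s).const_mul (5 / 16))).const_mul (-(52 / 25 : ℝ))).add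
    (((hasDerivAt_pow 2 s).const_mul (29 / 10 : ℝ)).const_add
      (-(13 / 20) / ((p : ℝ) + 1)))).congr_deriv ?_
  rw [potK']
  push_cast
  ring

theorem hasDerivAt_potB {p : ℕ} {s : ℝ} (hs : s ∈ Ioo (0 : ℝ) 1) :
    HasDerivAt potB (potB' s) s := (polePot_null p 1 hs).1

theorem muMin_bounds (hp : 98 ≤ p) :
    3 / 4 - 296 / 100 / ((p : ℝ) + 1) ≤ Ident.muMin p ∧
      Ident.muMin p ≤ 3 / 4 - 250 / 100 / ((p : ℝ) + 1) := by
  obtain ⟨j, rfl⟩ : ∃ j, p = j + 1 := ⟨p - 1, by omega⟩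
  have hj : (97 : ℝ) ≤ j := by
    have : 97 ≤ j := by omega
    exact_mod_cast this
  have hb := Ident.b0_pos (j + 1)
  have h1 := (b0_sq_bounds (j + 1)).1
  have h2 := LargeN.ratSq_succ_le j
  rw [Centre.ratSq_eq, LargeN.low, div_div_eq_mul_div, div_pow, div_mul_eq_mul_div, div_div,
    le_div_iff₀ (by positivity)] at h2
  rw [div_le_iff₀ (by positivity)] at h1
  push_cast at h1 h2 ⊢
  set B := Ident.b0 (j + 1) ^ 2 with hB
  have hB0 : 0 < B := by positivity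
  have e : Ident.muMin (j + 1) =
      ((j : ℝ) + 3) * ((j : ℝ) + 1) * (((j : ℝ) + 5) * (1 - B) - 1) / (2 * ((j : ℝ) + 5) * B) := by
    rw [Ident.muMin, hB]
    push_cast
    field_simp
    ring
  obtain ⟨k, hk, hjk⟩ : ∃ k : ℝ, 0 ≤ k ∧ (j : ℝ) = k + 97 := ⟨(j : ℝ) - 97, by linarith, by ring⟩
  rw [e]
  clear_value B
  rw [hjk] at h1 h2 ⊢
  constructor
  · rw [le_div_iff₀ (by positivity), sub_mul, div_mul_eq_mul_div _ (k + 97 + 1 + 1),
      sub_le_iff_le_add, ← sub_le_iff_le_add', le_div_iff₀ (by positivity)]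
    nlinarith [mul_le_mul_of_nonneg_left h2 hk, mul_le_mul_of_nonneg_left h2 (mul_nonneg hk hk),
      mul_le_mul_of_nonneg_left h2 (mul_nonneg (mul_nonneg hk hk) hk)]
  · rw [div_le_iff₀ (by positivity), sub_mul, div_mul_eq_mul_div _ (k + 97 + 1 + 1),
      le_sub_iff_add_le, ← le_sub_iff_add_le', div_le_iff₀ (by positivity)]
    nlinarith [mul_le_mul_of_nonneg_left h1 hk, mul_le_mul_of_nonneg_left h1 (mul_nonneg hk hk),
      mul_le_mul_of_nonneg_left h1 (mul_nonneg (mul_nonneg hk hk) hk)]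

/-- The point `(y, e)` of an abscissa. -/
noncomputable def pt (p : ℕ) (s : ℝ) : List ℝ := [((p : ℝ) + 1) * s ^ 2, 1 / ((p : ℝ) + 1)]

/-- The region of the certificates. -/
theorem pt_mem (hp : 98 ≤ p) (s : ℝ) :
    0 ≤ ((p : ℝ) + 1) * s ^ 2 ∧ 0 < 1 / ((p : ℝ) + 1) ∧ 1 / ((p : ℝ) + 1) ≤ 1 / 99 ∧
      ((p : ℝ) + 1) * s ^ 2 * (1 / ((p : ℝ) + 1)) = s ^ 2 := by
  have h : (98 : ℝ) ≤ p := by exact_mod_cast hp
  refine ⟨by positivity, by positivity, one_div_le_one_div_of_le (by norm_num) (by linarith), ?_⟩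
  field_simp

theorem nonneg_all {a : Expr} {T : Tree} (h : onBox a 0 35 1 T = true) (h' : onFar a = true)
    (hp : 98 ≤ p) {s : ℝ} (hs : s ^ 2 ≤ 354 / 1000) : 0 ≤ a.eval (pt p s) := by
  obtain ⟨hy, he, he', hz⟩ := pt_mem hp s
  rcases le_total (((p : ℝ) + 1) * s ^ 2) 35 with h1 | h1
  · exact onBox_nonneg h (by simpa using hy) (by simpa using h1) he.le he'
  · exact onFar_nonneg h' h1 he.le (le_of_eq_of_le hz hs)

theorem nonneg_high {a : Expr} {T : Tree} (h : onBox a 4 175 5 T = true) (h' : onFar a = true)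
    (hp : 98 ≤ p) {s : ℝ} (hs : s ^ 2 ≤ 354 / 1000) (h4 : 4 / 5 ≤ ((p : ℝ) + 1) * s ^ 2) :
    0 ≤ a.eval (pt p s) := by
  obtain ⟨hy, he, he', hz⟩ := pt_mem hp s
  rcases le_total (((p : ℝ) + 1) * s ^ 2) 35 with h1 | h1
  · exact onBox_nonneg h (by push_cast; linarith) (by push_cast; linarith) he.le he'
  · exact onFar_nonneg h' h1 he.le (le_of_eq_of_le hz hs)

/-- An upper bound of `exp ell`. -/
theorem exp_ell_le {m ell : ℝ} (hm : 99 ≤ m) (h0 : 0 ≤ ell) (hell : ell ≤ 27 / 2 / m) :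
    Real.exp ell ≤ 1 + 1452 / 100 / m := by
  have h1 : 27 / 2 / m ≤ 27 / 2 / 99 := by gcongr
  have h2 : (0 : ℝ) ≤ 27 / 2 / m := div_nonneg (by norm_num) (by linarith)
  refine (Real.exp_le_exp.2 hell).trans ((Real.exp_bound' h2 (by linarith)
    (n := 3) (by norm_num)).trans ?_)
  simp only [Finset.sum_range_succ, Finset.sum_range_zero]
  norm_num
  rw [show (363 : ℝ) / 25 / m = 27 / 2 / m + 102 / 1350 * (27 / 2 / m) by ring]
  nlinarith [mul_le_mul_of_nonneg_left h1 h2]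

/-- The bracket of the hazard bound at `m u ^ 2 = 36 / 25`. -/
theorem hazard_bracket {m u ell : ℝ} (hm : 99 ≤ m) (hu0 : 0 < u) (hu2 : m * u ^ 2 = 36 / 25)
    (hell : ell ≤ 27 / 2 / m) :
    (1 - u ^ 2) * (((m + 3) * u ^ 2 + 2) / ((m + 2) * u * ((m + 2) * u ^ 2 + 3))) +
      ell * (8045 / 10000 * u) * (2077 / 1000) ≤
      (64566 / 100000 + 2527 / 100 / m) * (5 / 6 * u) := by
  have hm0 : (0 : ℝ) < m := by linarith
  have hv : u ^ 2 = 36 / 25 / m := by rw [← hu2]; field_simp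
  have h4 : (1 - u ^ 2) * ((m + 3) * u ^ 2 + 2) ≤
      (64566 / 100000 + 2527 / 100 / m - 27 / 2 / m * (8045 / 10000 * (2077 / 1000)) * (6 / 5)) *
        (5 / 6) * ((m + 2) * u ^ 2 * ((m + 2) * u ^ 2 + 3)) := by
    rw [hv]
    obtain ⟨n, hn, rfl⟩ : ∃ n, 0 ≤ n ∧ m = n + 99 := ⟨m - 99, by linarith, by ring⟩
    field_simp
    ring_nf
    nlinarith [mul_nonneg hn hn, mul_nonneg (mul_nonneg hn hn) hn]
  have h5 := mul_le_mul_of_nonneg_right hell
    (show 0 ≤ 8045 / 10000 * u * (2077 / 1000) by positivity)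
  have h6 : (1 - u ^ 2) * (((m + 3) * u ^ 2 + 2) / ((m + 2) * u * ((m + 2) * u ^ 2 + 3))) ≤
      (64566 / 100000 + 2527 / 100 / m - 27 / 2 / m * (8045 / 10000 * (2077 / 1000)) * (6 / 5)) *
        (5 / 6 * u) := by
    rw [mul_div_assoc', div_le_iff₀ (by positivity)]
    linear_combination h4
  linear_combination h6 + h5

/-- The constant of the hazard bound at the base. -/
theorem base_exp_le {u : ℝ} {m : ℝ} (hu2 : m * u ^ 2 = 36 / 25) (hu : u ^ 2 ≤ 36 / 25 / 99) :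
    Real.exp (m * u ^ 2 / (2 * (1 - u ^ 2))) ≤ 2077 / 1000 := by
  rw [hu2]
  refine (Real.exp_le_exp.2 (show (36 : ℝ) / 25 / (2 * (1 - u ^ 2)) ≤ 7307 / 10000 from ?_)).trans ?_
  · rw [div_le_iff₀ (by linarith)]; linarith
  · refine (Real.exp_bound' (by norm_num) (by norm_num) (n := 6) (by norm_num)).trans ?_
    simp only [Finset.sum_range_succ, Finset.sum_range_zero]
    norm_num

/-- The squared form of the hazard bound. -/
theorem hazard_square {m s w E K : ℝ} (hm : 0 < m) (hs : 0 < s) (hs1 : 0 < 1 - s ^ 2)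
    (hw : 0 ≤ w) (hE : 0 ≤ E) (hK : 0 ≤ K)
    (hsq : (E * K * (m * s ^ 2 + 2 * s ^ 2 + 1)) ^ 2 ≤
      w ^ 2 * (1 - s ^ 2) ^ 2 * (m * s ^ 2)) :
    E * (((m + 2) * s ^ 2 + 1) / (s * (1 - s ^ 2)) * (K / √m)) ≤ w := by
  have hr : 0 < √m := Real.sqrt_pos.2 hm
  rw [show E * (((m + 2) * s ^ 2 + 1) / (s * (1 - s ^ 2)) * (K / √m)) =
    E * K * (m * s ^ 2 + 2 * s ^ 2 + 1) / (√m * s * (1 - s ^ 2)) by field_simp,
    div_le_iff₀ (by positivity)]
  refine (pow_le_pow_iff_left₀ (by positivity) (by positivity) two_ne_zero).1 (hsq.trans_eq ?_)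
  rw [mul_pow, mul_pow, mul_pow, Real.sq_sqrt hm.le]
  ring

/-- An affine bound of `v` by the hazard, from its certificates. -/
theorem inv_rate_le_affine (hp : 98 ≤ p) {ell s t a r q w : ℝ} (h : FlatState p ell s t a r q)
    (h0 : 0 ≤ ell) (hell : ell ≤ 27 / 2 / ((p : ℝ) + 1)) (hy : 36 / 25 ≤ ((p : ℝ) + 1) * s ^ 2)
    (hw : 1 + 1452 / 100 / ((p : ℝ) + 1) ≤ w)
    (hsq : ((1 + 1452 / 100 / ((p : ℝ) + 1)) * (64566 / 100000 + 2527 / 100 / ((p : ℝ) + 1)) *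
        (((p : ℝ) + 1) * s ^ 2 + 2 * s ^ 2 + 1)) ^ 2 ≤
      w ^ 2 * (1 - s ^ 2) ^ 2 * (((p : ℝ) + 1) * s ^ 2)) :
    1 / r ≤ w := by
  have hpp : (98 : ℝ) ≤ p := by exact_mod_cast hp
  obtain ⟨m, hm, hme⟩ : ∃ m : ℝ, 99 ≤ m ∧ (p : ℝ) + 1 = m := ⟨_, by linarith, rfl⟩
  rw [hme] at hell hy hw hsq
  have hs := h.state.s_mem
  have hm0 : (0 : ℝ) < m := by linarith
  have hsm2 : √m ^ 2 = m := Real.sq_sqrt hm0.le
  have hsm : 0 < √m := Real.sqrt_pos.2 hm0
  set u : ℝ := 6 / 5 / √m with hu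
  have hu2 : m * u ^ 2 = 36 / 25 := by rw [hu, div_pow, hsm2]; field_simp; ring
  have hu0 : 0 < u := by positivity
  have hus : u ≤ s := (pow_le_pow_iff_left₀ hu0.le hs.1.le two_ne_zero).1
    (le_of_mul_le_mul_left (by linarith) hm0)
  have hu1 : u < 1 := hus.trans_lt hs.2
  have hu2' : u ^ 2 ≤ 36 / 25 / 99 := by
    rw [show u ^ 2 = 36 / 25 / m by rw [← hu2]; field_simp]
    gcongr
  have hE := exp_ell_le hm h0 hell
  have hC : 1 / arc u ^ (p + 1) ≤ 2077 / 1000 := by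
    refine (inv_arc_pow_le ⟨by linarith, hu1⟩).trans ?_
    rw [hme]
    exact base_exp_le hu2 hu2'
  have hL : Lift.circLow p u ≤ 8045 / 10000 * u := by
    refine (circLow_le_poly ⟨hu0.le, hu1.le⟩).trans (le_of_eq_of_le (mul_comm _ _) ?_)
    rw [hme, hu2]
    exact mul_le_mul_of_nonneg_right (by norm_num) hu0.le
  refine (h.inv_rate_le_hazard h0 ⟨hu0, hus⟩ hE hL hC).trans ?_
  rw [show (p : ℝ) + 3 = m + 2 by linarith, show (p : ℝ) + 4 = m + 3 by linarith]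
  have hE0 : 0 ≤ 1 + 1452 / 100 / m := by positivity
  rw [mul_max_of_nonneg _ _ hE0, mul_one]
  refine max_le hw ?_
  have hc : 0 < 1 - s ^ 2 := by nlinarith [hs.1, hs.2]
  have key := hazard_bracket hm hu0 hu2 hell
  rw [show (5 : ℝ) / 6 * u = 1 / √m by rw [hu]; ring, mul_one_div] at key
  have hA : 0 ≤ ((m + 2) * s ^ 2 + 1) / (s * (1 - s ^ 2)) :=
    div_nonneg (by positivity) (mul_nonneg hs.1.le hc.le)
  exact (mul_le_mul_of_nonneg_left (mul_le_mul_of_nonneg_left key hA) hE0).trans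
    (hazard_square hm0 hs.1 hc (hE0.trans hw) hE0 (by positivity) hsq)

/-- The reciprocal of the power near the centre. -/
theorem exp_low_le {y z : ℝ} (hy0 : 0 ≤ y) (hy : y ≤ 11 / 5) (hz : z ≤ 11 / 5 / 99) :
    Real.exp (y / (2 * (1 - z))) ≤
      (1 + 256 / 1000 * y + 1 / 2 * (256 / 1000 * y) ^ 2 +
        1 / 6 * (256 / 1000 * y) ^ 3 + 5 / 96 * (256 / 1000 * y) ^ 4) ^ 2 := by
  refine (Real.exp_le_exp.2 (show y / (2 * (1 - z)) ≤
    256 / 1000 * y + 256 / 1000 * y from ?_)).trans ?_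
  · rw [div_le_iff₀ (by linarith)]
    nlinarith [mul_nonneg hy0 (sub_nonneg.2 hz)]
  · rw [Real.exp_add, ← sq]
    refine pow_le_pow_left₀ (Real.exp_pos _).le ((Real.exp_bound' (by positivity) (by linarith)
      (n := 4) (by norm_num)).trans (le_of_eq ?_)) _
    simp only [Finset.sum_range_succ, Finset.sum_range_zero, Nat.factorial]
    push_cast
    ring

/-- The bound near the centre, over one denominator. -/
theorem low_combine {m s ell w E U C : ℝ} (hm : 0 < m) (hs : 0 < s) (hc : 0 < 1 - s ^ 2)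
    (hell : ell ≤ 27 / 2 / m) (hE : 0 ≤ E) (hU : 0 ≤ U) (hC : 0 ≤ C)
    (hcert : E * ((1 - s ^ 2) + 27 / 2 * (1 / m) * (C * U) * (m * s ^ 2 + 2 * s ^ 2 + 1)) ≤
      w * (1 - s ^ 2)) :
    E * (1 + ell * (s * U) * C * (((m + 2) * s ^ 2 + 1) / (s * (1 - s ^ 2)))) ≤ w := by
  rw [show E * (1 + ell * (s * U) * C * (((m + 2) * s ^ 2 + 1) / (s * (1 - s ^ 2)))) =
    E * ((1 - s ^ 2) + ell * (C * U) * (m * s ^ 2 + 2 * s ^ 2 + 1)) / (1 - s ^ 2) by
      field_simp, div_le_iff₀ hc]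
  refine le_trans ?_ hcert
  gcongr
  rwa [mul_one_div]

/-- The polynomial bound of the mass below is nonnegative near the centre. -/
theorem low_poly_nonneg {y : ℝ} (hy : y ≤ 11 / 5) :
    0 ≤ 1 - y / 6 + y ^ 2 / 40 - y ^ 3 / 336 + y ^ 4 / 3456 := by
  nlinarith [mul_nonneg (sq_nonneg y) (sub_nonneg.2 hy), sq_nonneg (y ^ 2)]

/-- Near the centre the bound of `v` is `1 + e β (y)`. -/
theorem inv_rate_le_low (hp : 98 ≤ p) {ell s t a r q : ℝ} (h : FlatState p ell s t a r q)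
    (h0 : 0 ≤ ell) (hell : ell ≤ 27 / 2 / ((p : ℝ) + 1)) (hy : ((p : ℝ) + 1) * s ^ 2 ≤ 11 / 5) :
    1 / r ≤ xV.eval (pt p s) := by
  obtain ⟨hy0, he, he', hz⟩ := pt_mem hp s
  have hc0 := onBox_nonneg cert_v0 (y := ((p : ℝ) + 1) * s ^ 2) (e := 1 / ((p : ℝ) + 1))
    (by simpa using hy0) (by push_cast; linarith) he.le he'
  simp only [xVok, xE, xC, xZ, Expr.eval_sub, Expr.eval_mul, Expr.eval_add, Expr.eval_pow,
    Expr.eval_frac, Expr.eval_var, Expr.eval_ofNat, List.getD_cons_zero, List.getD_cons_succ,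
    hz] at hc0
  push_cast at hc0
  have hm : (99 : ℝ) ≤ (p : ℝ) + 1 := by
    have : (98 : ℝ) ≤ p := by exact_mod_cast hp
    linarith
  have hs := h.state.s_mem
  have hc : 0 < 1 - s ^ 2 := by nlinarith [hs.1, hs.2]
  have hz2 : s ^ 2 ≤ 11 / 5 / 99 := by
    rw [le_div_iff₀ (by norm_num)]
    nlinarith [mul_le_mul_of_nonneg_right hm (sq_nonneg s)]
  refine (h.inv_rate_le_pow h0 (exp_ell_le hm h0 hell) (circLow_le_poly (Ioo_subset_Icc_self hs))
    ((inv_arc_pow_le ⟨by linarith [hs.1], hs.2⟩).trans (exp_low_le hy0 hy hz2))).trans ?_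
  rw [show (p : ℝ) + 3 = (p : ℝ) + 1 + 2 by ring]
  refine low_combine (by linarith) hs.1 hc hell (by positivity) ?_ (sq_nonneg _) ?_
  · exact low_poly_nonneg hy
  · simp only [pt] at hc0 ⊢
    obtain ⟨y, hye⟩ : ∃ y, ((p : ℝ) + 1) * s ^ 2 = y := ⟨_, rfl⟩
    obtain ⟨W, hW⟩ : ∃ W, xV.eval [((p : ℝ) + 1) * s ^ 2, 1 / ((p : ℝ) + 1)] = W := ⟨_, rfl⟩
    rw [hW] at hc0 ⊢
    rw [hye] at hc0 ⊢
    rw [div_eq_mul_one_div (1452 / 100 : ℝ) ((p : ℝ) + 1)]
    generalize 1 / ((p : ℝ) + 1) = e at hc0 ⊢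
    linear_combination hc0

/-- A bound of `v` whose value at the end and whose discriminant are certified. -/
theorem vBound (hp : 98 ≤ p) {ell s t a r q : ℝ} (h : FlatState p ell s t a r q) (h0 : 0 ≤ ell)
    (hell : ell ≤ 27 / 2 / ((p : ℝ) + 1)) (hs : s ^ 2 ≤ 354 / 1000)
    (hy : 4 / 5 ≤ ((p : ℝ) + 1) * s ^ 2) :
    ∃ w : Expr, 1 / r ≤ w.eval (pt p s) ∧ 1 ≤ w.eval (pt p s) ∧
      0 ≤ (xEnd w).eval (pt p s) ∧ 0 ≤ (xEnd2 w).eval (pt p s) := by
  obtain ⟨hy0, he, he', hz⟩ := pt_mem hp s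
  have low : ∀ (w : Expr), 0 ≤ (xWok w).eval (pt p s) → 0 ≤ (w - xE).eval (pt p s) →
      36 / 25 ≤ ((p : ℝ) + 1) * s ^ 2 → 1 / r ≤ w.eval (pt p s) ∧ 1 ≤ w.eval (pt p s) := by
    intro w h1 h2 h3
    simp only [xWok, xE, xC, xZ, pt, Expr.eval_sub, Expr.eval_mul, Expr.eval_add, Expr.eval_pow,
      Expr.eval_frac, Expr.eval_var, Expr.eval_ofNat, List.getD_cons_zero, List.getD_cons_succ,
      hz] at h1 h2
    push_cast at h1 h2
    have h4 : 1 + 1452 / 100 / ((p : ℝ) + 1) ≤ w.eval (pt p s) := by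
      simp only [pt]
      rw [show (1452 : ℝ) / 100 / ((p : ℝ) + 1) = 1452 / 100 * (1 / ((p : ℝ) + 1)) by ring]
      linarith
    have h5 : 0 ≤ 1452 / 100 / ((p : ℝ) + 1) := by positivity
    refine ⟨inv_rate_le_affine hp h h0 hell h3 h4 ?_, by linarith⟩
    simp only [pt]
    linear_combination h1
  rcases le_total (((p : ℝ) + 1) * s ^ 2) (11 / 5) with h1 | h1
  · have hV := inv_rate_le_low hp h h0 hell h1
    have hb : 0 ≤ xBeta.eval (pt p s) := by
      simp only [xBeta, pt, Expr.eval_add, Expr.eval_mul, Expr.eval_frac, Expr.eval_var,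
        List.getD_cons_zero]
      push_cast
      positivity
    have hV1 : 1 ≤ xV.eval (pt p s) := by
      simp only [xV, Expr.eval_add, Expr.eval_mul, Expr.eval_ofNat, Expr.eval_var]
      have : 0 ≤ (pt p s).getD 1 0 := by simp [pt]; positivity
      push_cast
      nlinarith [mul_nonneg this hb]
    refine ⟨xV, hV, hV1, ?_, ?_⟩
    · have h3 := mul_nonneg (sq_nonneg (1 / ((p : ℝ) + 1))) (onBox_nonneg cert_end0
        (y := ((p : ℝ) + 1) * s ^ 2) (e := 1 / ((p : ℝ) + 1)) (by push_cast; linarith)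
        (by push_cast; linarith) he.le he')
      refine le_of_le_of_eq h3 ?_
      simp only [xEnd, xEndLow, xV, pt, Expr.eval_sub, Expr.eval_mul, Expr.eval_add, Expr.eval_pow,
        Expr.eval_ofNat, Expr.eval_var, List.getD_cons_zero, List.getD_cons_succ]
      push_cast
      ring
    · have h3 := mul_nonneg (sq_nonneg (1 / ((p : ℝ) + 1))) (onBox_nonneg cert_end0'
        (y := ((p : ℝ) + 1) * s ^ 2) (e := 1 / ((p : ℝ) + 1)) (by push_cast; linarith)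
        (by push_cast; linarith) he.le he')
      refine le_of_le_of_eq h3 ?_
      simp only [xEnd2, xEndLow2, xV, pt, Expr.eval_sub, Expr.eval_mul, Expr.eval_add,
        Expr.eval_pow, Expr.eval_ofNat, Expr.eval_var, List.getD_cons_zero, List.getD_cons_succ]
      push_cast
      ring
  have h3 : 36 / 25 ≤ ((p : ℝ) + 1) * s ^ 2 := by linarith
  rcases le_total (((p : ℝ) + 1) * s ^ 2) 6 with h2 | h2
  · have g : ∀ {a : Expr} {T : Tree}, onBox a 22 60 10 T = true → 0 ≤ a.eval (pt p s) :=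
      fun hc => onBox_nonneg hc (by push_cast; linarith) (by push_cast; linarith) he.le he'
    exact ⟨xW1, (low _ (g cert_v1) (g cert_v1') h3).1, (low _ (g cert_v1) (g cert_v1') h3).2,
      g cert_end1, g cert_end1'⟩
  rcases le_total (((p : ℝ) + 1) * s ^ 2) 12 with h4 | h4
  · have g : ∀ {a : Expr} {T : Tree}, onBox a 6 12 1 T = true → 0 ≤ a.eval (pt p s) :=
      fun hc => onBox_nonneg hc (by push_cast; linarith) (by push_cast; linarith) he.le he'
    exact ⟨xW2, (low _ (g cert_v2) (g cert_v2') h3).1, (low _ (g cert_v2) (g cert_v2') h3).2,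
      g cert_end2, g cert_end2'⟩
  rcases le_total (((p : ℝ) + 1) * s ^ 2) 24 with h5 | h5
  · have g : ∀ {a : Expr} {T : Tree}, onBox a 12 24 1 T = true → 0 ≤ a.eval (pt p s) :=
      fun hc => onBox_nonneg hc (by push_cast; linarith) (by push_cast; linarith) he.le he'
    exact ⟨xW3, (low _ (g cert_v3) (g cert_v3') h3).1, (low _ (g cert_v3) (g cert_v3') h3).2,
      g cert_end3, g cert_end3'⟩
  rcases le_total (((p : ℝ) + 1) * s ^ 2) 35 with h6 | h6
  · have g : ∀ {a : Expr} {T : Tree}, onBox a 24 35 1 T = true → 0 ≤ a.eval (pt p s) :=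
      fun hc => onBox_nonneg hc (by push_cast; linarith) (by push_cast; linarith) he.le he'
    exact ⟨xW4, (low _ (g cert_v4) (g cert_v4') h3).1, (low _ (g cert_v4) (g cert_v4') h3).2,
      g cert_end4, g cert_end4'⟩
  · have g : ∀ {a : Expr} {T : Tree}, onFar a T = true → 0 ≤ a.eval (pt p s) :=
      fun hc => onFar_nonneg hc h6 he.le (le_of_eq_of_le hz hs)
    exact ⟨xW5, (low _ (g cert_v5) (g cert_v5') h3).1, (low _ (g cert_v5) (g cert_v5') h3).2,
      g cert_end5, g cert_end5'⟩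

/-- A quadratic with nonnegative discriminant condition. -/
theorem quad_nonneg {a b c u : ℝ} (hc : 0 < c) (h : b ^ 2 ≤ 4 * a * c) :
    0 ≤ a + b * u + c * u ^ 2 := by
  have := quad_vertex_le (l := b) (u := u) hc
  have : -b ^ 2 / (4 * c) + a ≥ 0 := by
    rw [neg_div, ge_iff_le, neg_add_eq_sub, sub_nonneg, div_le_iff₀ (by linarith)]
    linarith
  linarith

/-- A quadratic on an interval, from its start and its end. -/
theorem quad_nonneg_on {a b c u hi : ℝ} (ha : 0 ≤ a) (hb : 0 ≤ b) (h0 : 0 ≤ u) (hu : u ≤ hi)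
    (h : 0 ≤ a + b * hi + c * hi ^ 2) : 0 ≤ a + b * u + c * u ^ 2 := by
  rcases le_total 0 c with hc | hc
  · positivity
  rcases eq_or_lt_of_le (h0.trans hu) with h1 | h1
  · have : u = 0 := by linarith
    simp [this, ha]
  refine nonneg_of_mul_nonneg_left (b := hi) ?_ h1
  nlinarith [mul_nonneg (sub_nonneg.2 hu) ha, mul_nonneg h0 h,
    mul_nonneg (mul_nonneg (mul_nonneg (neg_nonneg.2 hc) h0) (sub_nonneg.2 hu)) h1.le]

/-- The square in `d` and the quadratic in `u`. -/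
theorem square_le {e y c B Dh L lt sk σ R Q0 A u δ : ℝ} (hB : 0 < B) (hc : 0 < c)
    (hL : L = B * lt + y * Dh) (hQ : Q0 = 4 * c ^ 2 * B * (R - σ) - y ^ 2 * Dh ^ 2)
    (hσ : sk = e ^ 2 * σ)
    (hU : 0 ≤ e ^ 2 * Q0 + 4 * c ^ 2 * e * L * u + 4 * c ^ 2 * (B * (A - sk) - c ^ 2) * u ^ 2) :
    -(e ^ 2 * R) ≤ e * lt * u + (e * y * Dh / c - 2 * c * u) * δ + A * u ^ 2 + B * δ ^ 2 -
      sk * (1 + u ^ 2) := by
  have e1 : e * lt * u + (e * y * Dh / c - 2 * c * u) * δ + A * u ^ 2 + B * δ ^ 2 -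
      sk * (1 + u ^ 2) + e ^ 2 * R =
      (2 * B * δ + (e * y * Dh / c - 2 * c * u)) ^ 2 / (4 * B) +
      (e ^ 2 * Q0 + 4 * c ^ 2 * e * L * u + 4 * c ^ 2 * (B * (A - sk) - c ^ 2) * u ^ 2) /
        (4 * c ^ 2 * B) := by
    subst hL hQ hσ
    field_simp
    ring
  have : 0 ≤ (2 * B * δ + (e * y * Dh / c - 2 * c * u)) ^ 2 / (4 * B) +
      (e ^ 2 * Q0 + 4 * c ^ 2 * e * L * u + 4 * c ^ 2 * (B * (A - sk) - c ^ 2) * u ^ 2) /
        (4 * c ^ 2 * B) := by positivity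
  linarith

end Vale.Agent.P237.Petty.Cor.MidHigh
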