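import Vale.Agent.P237.Petty.Cor.MidHigh.Poly

/-!
# P237: the sign conditions of the cell, checked by the kernel
-/

namespace Vale.Agent.P237.Petty.Cor.MidHigh

open Vale.Agent.P100.Bernstein

theorem cert_B : onBox (xB - .frac 1 10) 0 35 1 .leaf = true := by decide +kernel

theorem cert_B_far : onFar (xB - .frac 1 10) = true := by decide +kernel

theorem cert_C20 : onBox (xC20 - .frac 1 10) 0 35 1 .leaf = true := by decide +kernel

theorem cert_C20_far : onFar (xC20 - .frac 1 10) = true := by decide +kernel

theorem cert_P0 : onBox xP0 0 35 1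
    (.split 0 (.split 0 (.split 0 .leaf .leaf) .leaf) .leaf) = true := by decide +kernel

theorem cert_P0_far : onFar xP0 = true := by decide +kernel

theorem cert_R : onBox xR 0 35 1
    (.split 0 (.split 0 (.split 0 (.split 0 .leaf .leaf) .leaf) .leaf) .leaf) = true := by
  decide +kernel

theorem cert_R_far : onFar xR = true := by decide +kernel

theorem cert_B21 : onBox (xB21 xV - .frac 1 10) 0 4 5 .leaf = true := by decide +kernel

theorem cert_P1 : onBox (xP1 xV) 0 4 5 .leaf = true := by decide +kernel

theorem cert_L : onBox xL 4 175 5 .leaf = true := by decide +kernel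

theorem cert_L_far : onFar xL = true := by decide +kernel

theorem cert_Q0 : onBox xQ0 4 175 5 (.split 0 .leaf .leaf) = true := by decide +kernel

theorem cert_Q0_far : onFar xQ0 = true := by decide +kernel

theorem cert_end0 : onBox xEndLow 8 22 10 .leaf = true := by decide +kernel

theorem cert_end0' : onBox xEndLow2 8 22 10 .leaf = true := by decide +kernel

theorem cert_end1 : onBox (xEnd xW1) 22 60 10 .leaf = true := by decide +kernel

theorem cert_end1' : onBox (xEnd2 xW1) 22 60 10 .leaf = true := by decide +kernel

theorem cert_end2 : onBox (xEnd xW2) 6 12 1 .leaf = true := by decide +kernel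

theorem cert_end2' : onBox (xEnd2 xW2) 6 12 1 .leaf = true := by decide +kernel

theorem cert_end3 : onBox (xEnd xW3) 12 24 1 .leaf = true := by decide +kernel

theorem cert_end3' : onBox (xEnd2 xW3) 12 24 1 .leaf = true := by decide +kernel

theorem cert_end4 : onBox (xEnd xW4) 24 35 1 .leaf = true := by decide +kernel

theorem cert_end4' : onBox (xEnd2 xW4) 24 35 1
    (.split 0 .leaf (.split 0 .leaf .leaf)) = true := by decide +kernel

theorem cert_end5 : onFar (xEnd xW5) = true := by decide +kernel

theorem cert_end5' : onFar (xEnd2 xW5) = true := by decide +kernel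

theorem cert_v0 : onBox xVok 0 22 10 (.split 0 .leaf .leaf) = true := by decide +kernel

theorem cert_v1 : onBox (xWok xW1) 22 60 10 (.split 0 .leaf .leaf) = true := by decide +kernel

theorem cert_v1' : onBox (xW1 - xE) 22 60 10 .leaf = true := by decide +kernel

theorem cert_v2 : onBox (xWok xW2) 6 12 1 (.split 0 .leaf .leaf) = true := by decide +kernel

theorem cert_v2' : onBox (xW2 - xE) 6 12 1 .leaf = true := by decide +kernel

theorem cert_v3 : onBox (xWok xW3) 12 24 1 (.split 0 .leaf .leaf) = true := by decide +kernel

theorem cert_v3' : onBox (xW3 - xE) 12 24 1 .leaf = true := by decide +kernel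

theorem cert_v4 : onBox (xWok xW4) 24 35 1 (.split 0 .leaf .leaf) = true := by decide +kernel

theorem cert_v4' : onBox (xW4 - xE) 24 35 1 .leaf = true := by decide +kernel

theorem cert_v5 : onFar (xWok xW5)
    (.split 1 (.split 1 (.split 1 .leaf .leaf) .leaf) .leaf) = true := by decide +kernel

theorem cert_v5' : onFar (xW5 - xE) = true := by decide +kernel

end Vale.Agent.P237.Petty.Cor.MidHigh
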