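import Vale.Agent.P237.Petty.Cor.MidHigh.Tail
import Vale.Agent.P237.Petty.Cor.Top.Low14

/-!
# P237: the cell between six and twenty-seven halves over the dimension

For `p + 2 ≥ 100` the bounds of the correlation excess hold for every value in
`[6 / (p + 2), 27 / (2 (p + 2))]`.
-/

namespace Vale.Agent.P237.Petty.Cor.MidHigh

open MeasureTheory Set intervalIntegral
open Ident (half rate)
open Huge (moment)
open Vale.Agent.P100.Bernstein

variable {p : ℕ}

/-- The remainder. -/
noncomputable def restR (p : ℕ) (s : ℝ) : ℝ :=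
  (1 / ((p : ℝ) + 1)) ^ 2 * xR.eval (pt p s) +
    113 * ((p : ℝ) + 1) * (20 / 7) ^ 26 * (s ^ 52 / (1 - s ^ 2) ^ 2)

theorem xR_nonneg {y e : ℝ} (hy : 0 ≤ y) : 0 ≤ xR.eval [y, e] := by
  have h : xR.eval [y, e] = xR.eval [y, 0] := by simp [xR]
  rw [h]
  rcases le_total y 35 with h1 | h1
  · exact onBox_nonneg cert_R (by simpa using hy) (by simpa using h1) le_rfl (by norm_num)
  · exact onFar_nonneg cert_R_far h1 le_rfl (by norm_num)

theorem rest_pointwise (hp : 98 ≤ p) {ell s t a r q : ℝ} (h : FlatState p ell s t a r q)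
    (h0 : 0 ≤ ell) (hell : ell ≤ 27 / 2 / ((p : ℝ) + 1)) :
    ell * (wS p (arc s) - 0) - restR p s ≤
      cancelExpr p (gamC p) (nuC p) ell (fun s t => s + 1 * (s - t)) (fun _ _ => 1 + 1)
        (fun _ _ => -1) (quadPot (potK p) potB) (quadPotS (potK p) potK' potB potB')
        (quadPotT (potK p) potB) s t a r := by
  rw [restR, sub_zero]
  have hs := h.state.s_mem
  have hc : 0 < 1 - s ^ 2 := by nlinarith [hs.1, hs.2]
  rcases le_total (s ^ 2) (354 / 1000) with h1 | h1
  · have := bulk_pointwise hp h h0 hell h1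
    have : 0 ≤ 113 * ((p : ℝ) + 1) * (20 / 7) ^ 26 * (s ^ 52 / (1 - s ^ 2) ^ 2) := by
      have := hs.1
      positivity
    linarith
  · have h2 : 7 / 20 ≤ s ^ 2 := by linarith
    have := tail_pointwise hp h h0 hell h2
    have h3 := mul_nonneg (sq_nonneg (1 / ((p : ℝ) + 1)))
      (xR_nonneg (e := 1 / ((p : ℝ) + 1)) (pt_mem hp s).1)
    have h4 : 113 * ((p : ℝ) + 1) / (1 - s ^ 2) ^ 2 ≤
        113 * ((p : ℝ) + 1) * (20 / 7) ^ 26 * (s ^ 52 / (1 - s ^ 2) ^ 2) := by
      rw [show 113 * ((p : ℝ) + 1) * (20 / 7) ^ 26 * (s ^ 52 / (1 - s ^ 2) ^ 2) =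
        113 * ((p : ℝ) + 1) / (1 - s ^ 2) ^ 2 * (20 / 7 * s ^ 2) ^ 26 by
          rw [mul_pow, ← pow_mul]; ring]
      exact le_mul_of_one_le_right (by positivity) (one_le_pow₀ (by linarith))
    rw [pt] at *
    linarith

/-- The product of the last twenty-two factors in the moments, at `k = 95`. -/
def tailBase : ℕ := ∏ i ∈ Finset.range 22, (106 + 2 * i)

/-- The products in the moments beyond the bulk. -/
theorem prod_ge {k : ℝ} (hk : 95 ≤ k) :
    (tailBase : ℝ) * (k + 3) ^ 4 ≤ ∏ i ∈ Finset.range 26, (k + 2 * (i : ℝ) + 3) := by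
  have h1 : (k + 3) ^ 4 ≤ ∏ i ∈ Finset.range 4, (k + 2 * (i : ℝ) + 3) := by
    refine le_of_eq_of_le (b := ∏ _i ∈ Finset.range 4, (k + 3)) (by simp) ?_
    exact Finset.prod_le_prod (fun _ _ => by linarith) fun i _ => by
      linarith [Nat.cast_nonneg (α := ℝ) i]
  have h2 : (tailBase : ℝ) ≤ ∏ i ∈ Finset.range 22, (k + 2 * ((4 + i : ℕ) : ℝ) + 3) := by
    rw [tailBase, Nat.cast_prod]
    refine Finset.prod_le_prod (fun _ _ => Nat.cast_nonneg _) fun i _ => ?_
    push_cast
    linarith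
  calc (tailBase : ℝ) * (k + 3) ^ 4 = (k + 3) ^ 4 * tailBase := mul_comm _ _
    _ ≤ (∏ i ∈ Finset.range 4, (k + 2 * (i : ℝ) + 3)) *
        ∏ i ∈ Finset.range 22, (k + 2 * ((4 + i : ℕ) : ℝ) + 3) :=
      mul_le_mul h1 h2 (Nat.cast_nonneg _)
        (Finset.prod_nonneg fun i _ => by linarith [Nat.cast_nonneg (α := ℝ) i])
    _ = ∏ i ∈ Finset.range 26, (k + 2 * (i : ℝ) + 3) :=
      (Finset.prod_range_add (fun i => k + 2 * (i : ℝ) + 3) 4 22).symm

/-- The mean of the part beyond the bulk. -/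
theorem tail_mean_le (hp : 98 ≤ p) :
    113 * ((p : ℝ) + 1) * (20 / 7) ^ 26 * moment (p - 3) 26 ≤
      15 / ((p : ℝ) + 1) ^ 3 * half (p + 1) := by
  obtain ⟨k, rfl⟩ : ∃ k, p = k + 3 := ⟨p - 3, by omega⟩
  rw [show k + 3 - 3 = k by omega]
  have hk : (95 : ℝ) ≤ k := by exact_mod_cast (by omega : 95 ≤ k)
  have h3 := mul_le_mul_of_nonneg_right (prod_ge hk) (moment_nonneg k 26)
  have hodd : (∏ i ∈ Finset.range 26, (2 * (i : ℝ) + 1)) =
      (∏ i ∈ Finset.range 26, (2 * i + 1) : ℕ) := by push_cast; rfl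
  have hN : (∏ i ∈ Finset.range 26, (2 * i + 1) : ℕ) =
      2980227913743310874726229193921875 := by decide +kernel
  rw [moment_eq k 26, hodd, hN] at h3
  have hB : tailBase = 17201327837509231438996428827364787193118720000 := by decide +kernel
  rw [hB] at h3
  have hs : half k ≤ 98 / 97 * (100 / 99) * half (k + 4) := by
    have a1 := half_le_shift k
    have a2 := half_le_shift (k + 2)
    push_cast at a2
    have b1 : ((k : ℝ) + 3) / (k + 2) ≤ 98 / 97 := by
      rw [div_le_div_iff₀ (by positivity) (by norm_num)]; linarith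
    have b2 : ((k : ℝ) + 2 + 3) / (k + 2 + 2) ≤ 100 / 99 := by
      rw [div_le_div_iff₀ (by positivity) (by norm_num)]; linarith
    have hp2 := (Ident.half_pos (k + 2)).le
    have hp4 := (Ident.half_pos (k + 4)).le
    calc half k ≤ ((k : ℝ) + 3) / (k + 2) * half (k + 2) := a1
      _ ≤ 98 / 97 * half (k + 2) := mul_le_mul_of_nonneg_right b1 hp2
      _ ≤ 98 / 97 * (100 / 99 * half (k + 4)) := mul_le_mul_of_nonneg_left
          (a2.trans (mul_le_mul_of_nonneg_right b2 hp4)) (by norm_num)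
      _ = 98 / 97 * (100 / 99) * half (k + 4) := by ring
  push_cast at h3 ⊢
  rw [div_mul_eq_mul_div, le_div_iff₀ (by positivity)]
  have h4 : ((k : ℝ) + 3 + 1) ^ 4 ≤ (99 / 98 * ((k : ℝ) + 3)) ^ 4 :=
    pow_le_pow_left₀ (by positivity) (by linarith) 4
  have hM := moment_nonneg k 26
  generalize moment k 26 = M at h3 hM ⊢
  have h5 := mul_le_mul_of_nonneg_right h4 hM
  have hh := (Ident.half_pos (k + 4)).le
  rw [show k + 3 + 1 = k + 4 from rfl]
  refine le_of_mul_le_mul_right ?_ (show (0 : ℝ) < 17201327837509231438996428827364787193118720000 by norm_num)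
  linarith [h3, hs, h5, hh]

/-- The mean inequality over `e`, cleared. -/
def xMean : Expr :=
  (6 * (.frac 3 4 - .frac 296 100 * vE) - 15 * vE * (1 + vE) ^ 2) *
      ((1 + 3 * vE) * (1 + 5 * vE) * (1 + 7 * vE) * (1 + 9 * vE) * (1 + 11 * vE) * (1 + 13 * vE) *
        (1 + 15 * vE) * (1 + 17 * vE)) -
    (1 + vE) ^ 2 *
      ((((((((.frac 5043 10000 * (1 + 3 * vE) + .frac (-9567) 10000) * (1 + 5 * vE) +
        .frac 17406 10000 * 3) * (1 + 7 * vE) + .frac (-2849) 10000 * 15) * (1 + 9 * vE) +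
        .frac 8845 100000 * 105) * (1 + 11 * vE) + .frac (-12817) 1000000 * 945) * (1 + 13 * vE) +
        .frac 11478 10000000 * 10395) * (1 + 15 * vE) + .frac (-531) 10000000 * 135135) *
          (1 + 17 * vE) + .frac 10024 10000000000 * 2027025)

theorem cert_mean : onBox xMean 0 0 1 .leaf = true := by decide +kernel

/-- The combination of the moments. -/
theorem mean_alg {m M0 M1 M2 M3 M4 M5 M6 M7 M8 H : ℝ} (hm : 0 < m) (h0 : M0 = H)
    (h1 : (m + 3) * M1 = 1 * M0) (h2 : (m + 5) * M2 = 3 * M1) (h3 : (m + 7) * M3 = 5 * M2)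
    (h4 : (m + 9) * M4 = 7 * M3) (h5 : (m + 11) * M5 = 9 * M4) (h6 : (m + 13) * M6 = 11 * M5)
    (h7 : (m + 15) * M7 = 13 * M6) (h8 : (m + 17) * M8 = 15 * M7) :
    (5043 / 10000 * M0 + -9567 / 10000 * (m * M1) + 17406 / 10000 * (m ^ 2 * M2) +
      -2849 / 10000 * (m ^ 3 * M3) + 8845 / 100000 * (m ^ 4 * M4) +
      -12817 / 1000000 * (m ^ 5 * M5) + 11478 / 10000000 * (m ^ 6 * M6) +
      -531 / 10000000 * (m ^ 7 * M7) + 10024 / 10000000000 * (m ^ 8 * M8)) *
      ((1 + 3 * (1 / m)) * (1 + 5 * (1 / m)) * (1 + 7 * (1 / m)) * (1 + 9 * (1 / m)) *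
        (1 + 11 * (1 / m)) * (1 + 13 * (1 / m)) * (1 + 15 * (1 / m)) * (1 + 17 * (1 / m))) =
    ((((((((5043 / 10000 * (1 + 3 * (1 / m)) + -9567 / 10000) * (1 + 5 * (1 / m)) +
        17406 / 10000 * 3) * (1 + 7 * (1 / m)) + -2849 / 10000 * 15) * (1 + 9 * (1 / m)) +
        8845 / 100000 * 105) * (1 + 11 * (1 / m)) + -12817 / 1000000 * 945) * (1 + 13 * (1 / m)) +
        11478 / 10000000 * 10395) * (1 + 15 * (1 / m)) + -531 / 10000000 * 135135) *
          (1 + 17 * (1 / m)) + 10024 / 10000000000 * 2027025) * H := by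
  have e1 : M1 = 1 * M0 / (m + 3) := by rw [eq_div_iff (by positivity)]; linarith
  have e2 : M2 = 3 * M1 / (m + 5) := by rw [eq_div_iff (by positivity)]; linarith
  have e3 : M3 = 5 * M2 / (m + 7) := by rw [eq_div_iff (by positivity)]; linarith
  have e4 : M4 = 7 * M3 / (m + 9) := by rw [eq_div_iff (by positivity)]; linarith
  have e5 : M5 = 9 * M4 / (m + 11) := by rw [eq_div_iff (by positivity)]; linarith
  have e6 : M6 = 11 * M5 / (m + 13) := by rw [eq_div_iff (by positivity)]; linarith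
  have e7 : M7 = 13 * M6 / (m + 15) := by rw [eq_div_iff (by positivity)]; linarith
  have e8 : M8 = 15 * M7 / (m + 17) := by rw [eq_div_iff (by positivity)]; linarith
  rw [e8, e7, e6, e5, e4, e3, e2, e1, h0]
  field_simp
  ring

theorem xR_eval (y e : ℝ) : xR.eval [y, e] =
    5043 / 10000 + -9567 / 10000 * y + 17406 / 10000 * y ^ 2 + -2849 / 10000 * y ^ 3 +
      8845 / 100000 * y ^ 4 + -12817 / 1000000 * y ^ 5 + 11478 / 10000000 * y ^ 6 +
      -531 / 10000000 * y ^ 7 + 10024 / 10000000000 * y ^ 8 := by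
  simp [xR]

theorem continuous_xR (p : ℕ) : Continuous fun s => xR.eval (pt p s) := by
  simp only [pt, xR_eval]
  fun_prop

theorem restR_arc (hp : 4 ≤ p) {s : ℝ} (hs : s ∈ Icc (0 : ℝ) 1) :
    arc s ^ (p + 1) * restR p s =
      (1 / ((p : ℝ) + 1)) ^ 2 * (arc s ^ (p + 1) * xR.eval (pt p s)) +
        113 * ((p : ℝ) + 1) * (20 / 7) ^ 26 * (arc s ^ (p - 3) * s ^ (2 * 26)) := by
  have hc2 : arc s ^ 2 = 1 - s ^ 2 := Real.sq_sqrt (by nlinarith [hs.1, hs.2])
  have h : arc s ^ (p + 1) * (s ^ 52 / (1 - s ^ 2) ^ 2) = arc s ^ (p - 3) * s ^ (2 * 26) := by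
    rcases eq_or_lt_of_le hs.2 with h1 | h1
    · subst h1
      simp [arc, zero_pow (show p - 3 ≠ 0 by omega)]
    · have : (1 - s ^ 2) ≠ 0 := by nlinarith [hs.1]
      rw [show p + 1 = (p - 3) + 4 by omega, pow_add, show (arc s) ^ 4 = (arc s ^ 2) ^ 2 by ring,
        hc2]
      field_simp
  rw [restR, ← h]
  ring

theorem integral_xR (p : ℕ) :
    ∫ s in (0 : ℝ)..1, arc s ^ (p + 1) * xR.eval (pt p s) =
      5043 / 10000 * moment (p + 1) 0 + -9567 / 10000 * (((p : ℝ) + 1) * moment (p + 1) 1) +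
      17406 / 10000 * (((p : ℝ) + 1) ^ 2 * moment (p + 1) 2) +
      -2849 / 10000 * (((p : ℝ) + 1) ^ 3 * moment (p + 1) 3) +
      8845 / 100000 * (((p : ℝ) + 1) ^ 4 * moment (p + 1) 4) +
      -12817 / 1000000 * (((p : ℝ) + 1) ^ 5 * moment (p + 1) 5) +
      11478 / 10000000 * (((p : ℝ) + 1) ^ 6 * moment (p + 1) 6) +
      -531 / 10000000 * (((p : ℝ) + 1) ^ 7 * moment (p + 1) 7) +
      10024 / 10000000000 * (((p : ℝ) + 1) ^ 8 * moment (p + 1) 8) := by
  have h := integral_evenPoly (p + 1) 9 fun j => ([5043 / 10000, -9567 / 10000, 17406 / 10000,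
    -2849 / 10000, 8845 / 100000, -12817 / 1000000, 11478 / 10000000, -531 / 10000000,
    10024 / 10000000000] : List ℝ).getD j 0 * ((p : ℝ) + 1) ^ j
  simp only [Finset.sum_range_succ, Finset.sum_range_zero, List.getD_cons_zero,
    List.getD_cons_succ, zero_add] at h
  refine (intervalIntegral.integral_congr fun s _ => ?_).trans (h.trans (by ring))
  simp only [pt, xR_eval]
  ring

/-- The mean of the remainder. -/
theorem rest_mean (hp : 98 ≤ p) :
    ∫ s in (0 : ℝ)..1, arc s ^ (p + 1) * restR p s ≤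
      6 / ((p : ℝ) + 2) * (half (p + 1) * Ident.muMin p / ((p : ℝ) + 2)) := by
  have hpp : (98 : ℝ) ≤ p := by exact_mod_cast hp
  have hH := (Ident.half_pos (p + 1)).le
  have i1 : IntervalIntegrable (fun s => (1 / ((p : ℝ) + 1)) ^ 2 *
      (arc s ^ (p + 1) * xR.eval (pt p s))) volume 0 1 :=
    (continuous_const.mul ((continuous_arc.pow _).mul (continuous_xR p))).intervalIntegrable _ _
  rw [intervalIntegral.integral_congr (g := fun s => (1 / ((p : ℝ) + 1)) ^ 2 *
      (arc s ^ (p + 1) * xR.eval (pt p s)) +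
        113 * ((p : ℝ) + 1) * (20 / 7) ^ 26 * (arc s ^ (p - 3) * s ^ (2 * 26)))
      (by rw [uIcc_of_le zero_le_one]; exact fun s hs => restR_arc (by omega) hs),
    intervalIntegral.integral_add i1 ((Huge.integrable_moment _ _ _ _).const_mul _),
    intervalIntegral.integral_const_mul, intervalIntegral.integral_const_mul,
    show (∫ s in (0 : ℝ)..1, arc s ^ (p - 3) * s ^ (2 * 26)) = moment (p - 3) 26 from rfl,
    integral_xR]
  have hT := tail_mean_le hp
  have st : ∀ j : ℕ, ((p : ℝ) + 1 + (2 * (j : ℝ) + 3)) * moment (p + 1) (j + 1) =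
      (2 * (j : ℝ) + 1) * moment (p + 1) j := fun j => by
    have := Huge.moment_step (p + 1) j
    push_cast at this
    linarith
  have hA := mean_alg (m := (p : ℝ) + 1) (M1 := moment (p + 1) 1) (M2 := moment (p + 1) 2)
    (M3 := moment (p + 1) 3) (M4 := moment (p + 1) 4) (M5 := moment (p + 1) 5)
    (M6 := moment (p + 1) 6) (M7 := moment (p + 1) 7) (M8 := moment (p + 1) 8) (by positivity)
    (Huge.moment_zero (p + 1))
    (by have := st 0; push_cast at this; linarith) (by have := st 1; push_cast at this; linarith)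
    (by have := st 2; push_cast at this; linarith) (by have := st 3; push_cast at this; linarith)
    (by have := st 4; push_cast at this; linarith) (by have := st 5; push_cast at this; linarith)
    (by have := st 6; push_cast at this; linarith) (by have := st 7; push_cast at this; linarith)
  obtain ⟨-, he, he', -⟩ := pt_mem hp 0
  have hC := mul_nonneg (onBox_nonneg cert_mean (y := 0) (e := 1 / ((p : ℝ) + 1)) (by norm_num)
    (by norm_num) he.le he') hH
  simp only [xMean, Expr.eval_sub, Expr.eval_mul, Expr.eval_add, Expr.eval_pow, Expr.eval_frac,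
    Expr.eval_var, Expr.eval_ofNat, List.getD_cons_zero, List.getD_cons_succ] at hC
  push_cast at hC
  have hmu := (muMin_bounds hp).1
  rw [show (296 : ℝ) / 100 / ((p : ℝ) + 1) = 296 / 100 * (1 / ((p : ℝ) + 1)) by ring] at hmu
  set m := (p : ℝ) + 1 with hm
  rw [show (p : ℝ) + 2 = m + 1 by rw [hm]; ring]
  set Sg := 5043 / 10000 * moment (p + 1) 0 + -9567 / 10000 * (m * moment (p + 1) 1) +
      17406 / 10000 * (m ^ 2 * moment (p + 1) 2) +
      -2849 / 10000 * (m ^ 3 * moment (p + 1) 3) +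
      8845 / 100000 * (m ^ 4 * moment (p + 1) 4) +
      -12817 / 1000000 * (m ^ 5 * moment (p + 1) 5) +
      11478 / 10000000 * (m ^ 6 * moment (p + 1) 6) +
      -531 / 10000000 * (m ^ 7 * moment (p + 1) 7) +
      10024 / 10000000000 * (m ^ 8 * moment (p + 1) 8) with hSg
  rw [sub_mul, mul_assoc ((1 + 1 / m) ^ 2), ← hA] at hC
  have hm0 : 0 < m := by positivity
  have h1 : (1 + 1 / m) ^ 2 * Sg + 15 * (1 / m) * (1 + 1 / m) ^ 2 * half (p + 1) ≤
      6 * (3 / 4 - 296 / 100 * (1 / m)) * half (p + 1) := by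
    refine le_of_mul_le_mul_right ?_ (show 0 < (1 + 3 * (1 / m)) * (1 + 5 * (1 / m)) *
      (1 + 7 * (1 / m)) * (1 + 9 * (1 / m)) * (1 + 11 * (1 / m)) * (1 + 13 * (1 / m)) *
      (1 + 15 * (1 / m)) * (1 + 17 * (1 / m)) by positivity)
    linear_combination hC
  refine (add_le_add le_rfl hT).trans ?_
  have h2 := mul_le_mul_of_nonneg_right (mul_le_mul_of_nonneg_left hmu (show (0 : ℝ) ≤ 6 by norm_num))
    hH
  rw [show (1 + 1 / m) ^ 2 = (m + 1) ^ 2 / m ^ 2 by field_simp] at h1
  rw [show 6 / (m + 1) * (half (p + 1) * Ident.muMin p / (m + 1)) =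
    6 * Ident.muMin p * half (p + 1) / (m + 1) ^ 2 by field_simp, le_div_iff₀ (by positivity)]
  refine le_trans (le_of_eq ?_) (h1.trans h2)
  field_simp

end Vale.Agent.P237.Petty.Cor.MidHigh

namespace Vale.Agent.P237.Petty.Cor

open MidHigh in
/-- The cell between six and twenty-seven halves over the dimension. -/
theorem corCell_six {p : ℕ} (hp : 98 ≤ p) :
    CorCell p (6 / ((p : ℝ) + 2)) (27 / 2 / ((p : ℝ) + 2)) := by
  have hcR : ContinuousOn (fun s => arc s ^ (p + 1) * restR p s) (Set.Icc 0 1) :=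
    ((continuous_const.mul ((continuous_arc.pow _).mul (continuous_xR p))).add
      (continuous_const.mul ((continuous_arc.pow _).mul (continuous_pow _)))).continuousOn.congr
      fun s hs => restR_arc (by omega) hs
  refine corCell_of_bridge (p := p) (by omega) (gamC_pos p) (g := 1) (nu := nuC p)
    (M := fun _ => 0) (R := restR p) (B := fun s => -(arc s ^ (p + 1) * (1 - s ^ 2)))
    ?_ (fun s _ => hasDerivAt_potK p s) (fun s hs => hasDerivAt_potB (p := p) hs) ?_ ?_ ?_ ?_ hcR
    ?_ ?_ ?_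
  · obtain ⟨h1, -⟩ := nuC_bounds hp
    have : 0 ≤ 1 / ((p : ℝ) + 1) := by positivity
    linarith
  · have := continuous_arc
    exact ((continuous_arc.pow _).mul (by unfold potK; fun_prop)).continuousOn
  · exact ((continuous_arc.pow _).mul (by fun_prop)).neg.continuousOn
  · intro s hs
    have := hs.1.ne'
    rw [potB]
    field_simp
  · simp only [mul_zero]
    exact continuousOn_const
  · simp only [mul_zero, intervalIntegral.integral_zero]
    have := Ident.half_pos (p + 1)
    have := Lift.muMin_pos (p := p) (by omega)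
    positivity
  · simp only [mul_zero, intervalIntegral.integral_zero, sub_zero]
    exact rest_mean hp
  · intro ell hl s t a r q h
    have h0 : 0 ≤ ell := le_trans (by positivity) hl.1
    exact rest_pointwise hp h h0 (hl.2.trans (div_le_div_of_nonneg_left (by norm_num)
      (by positivity) (by linarith)))

/-- The cell between six and sixteen over the dimension. -/
theorem corCell_midHigh {p : ℕ} (hp : 98 ≤ p) :
    CorCell p (6 / ((p : ℝ) + 2)) (16 / ((p : ℝ) + 2)) :=
  (corCell_six hp).append (Top.corCell_low14 hp)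

end Vale.Agent.P237.Petty.Cor
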