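import Vale.Agent.P100.Bernstein.Cert

/-!
# P237: the polynomials of the cell between six and twenty-seven halves over the dimension

All coefficients of the cell are polynomials in `y = m s ^ 2` and `e = 1 / m`, with `s ^ 2 = y e`.
-/

namespace Vale.Agent.P237.Petty.Cor.MidHigh

open Vale.Agent.P100.Bernstein

/-- `y = m s ^ 2`. -/
abbrev vY : Expr := .var 0

/-- `e = 1 / m`. -/
abbrev vE : Expr := .var 1

/-- `s ^ 2`. -/
def xZ : Expr := vY * vE

/-- The square of the half circle. -/
def xC : Expr := 1 - xZ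

/-- The cubic Taylor polynomial of the reciprocal of the half circle. -/
def xP : Expr := 1 + .frac 1 2 * xZ + .frac 3 8 * xZ ^ 2 + .frac 5 16 * xZ ^ 3

/-- An upper bound of the reciprocal of the half circle. -/
def xPu : Expr := xP + .frac 41 100 * xZ ^ 4

/-- Half the residual of the reciprocal, with the multiplier of the shadow. -/
def xSk : Expr := .frac 533 1250 * xZ ^ 4

/-- The lower bound of the Fisher multiplier. -/
def xNl : Expr := .frac 133 200 + .frac 152 100 * vE

/-- The upper bound of the Fisher multiplier. -/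
def xNh : Expr := .frac 133 200 + .frac 175 100 * vE

/-- The potential's part of the coefficient of `u`, over `e`. -/
def xLt : Expr := .frac (-13) 20 + .frac 29 10 * vY

/-- The coefficient of `d`, times `c ^ 2 / s`. -/
def xDh : Expr :=
  xC * (.frac (-104) 25 * (.frac 1 2 + .frac 3 4 * xZ + .frac 15 16 * xZ ^ 2) - .frac 11 25 -
      .frac 81 50 * vE) +
    .frac 52 25 * (vY * (.frac 3 2 + .frac 3 8 * xZ + .frac 5 16 * xZ ^ 2)) -
    .frac 27 50 * xC - xLt

/-- The coefficient of the square of `d / s`. -/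
def xB : Expr := 1 + vY + xZ - xNh * (vY + 3 * xZ)

/-- The coefficient of `u` after the square, over `e`. -/
def xL : Expr := xB * xLt + vY * xDh

/-- The coefficient of `u ^ 2` after the square, for `v ≤ 1`. -/
def xC20 : Expr :=
  xB * (4 * xNl * xC - .frac 26 25 * xPu - xSk) - xC ^ 2

/-- The remainder, over `e ^ 2`. -/
def xR : Expr :=
  .frac 5043 10000 + .frac (-9567) 10000 * vY + .frac 17406 10000 * vY ^ 2 +
    .frac (-2849) 10000 * vY ^ 3 + .frac 8845 100000 * vY ^ 4 + .frac (-12817) 1000000 * vY ^ 5 +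
    .frac 11478 10000000 * vY ^ 6 + .frac (-531) 10000000 * vY ^ 7 +
    .frac 10024 10000000000 * vY ^ 8

/-- The constant after the square, over `e ^ 2`. -/
def xQ0 : Expr :=
  4 * xC ^ 2 * xB * (xR - .frac 533 1250 * (vY ^ 4 * vE ^ 2)) - vY ^ 2 * xDh ^ 2

/-- The coefficient of `u ^ 2` for `1 ≤ v ≤ w`, times `2 w (w + 2)`. -/
def xB21 (w : Expr) : Expr :=
  xB * (8 * (w + 2) * xNl * xC - .frac 52 25 * xPu * (2 * w + 1)) -
    2 * w * (w + 2) * (xB * xSk + xC ^ 2)

/-- The coefficient of `u ^ 2` for `1 ≤ v ≤ w` where it is negative, times `2 (w + 2)`. -/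
def xB22 (w : Expr) : Expr :=
  xB * (8 * (w + 2) * xNl * xC - .frac 52 25 * xPu * (2 * w + 1)) -
    2 * (w + 2) * (xB * xSk + xC ^ 2)

/-- The discriminant for `v ≤ 1`. -/
def xP0 : Expr := xQ0 * xC20 - xC ^ 2 * xL ^ 2

/-- The discriminant for `1 ≤ v ≤ w`. -/
def xP1 (w : Expr) : Expr := xQ0 * xB21 w - 2 * w * (w + 2) * xC ^ 2 * xL ^ 2

/-- The value at `v = w`. -/
def xEnd (w : Expr) : Expr :=
  2 * vE ^ 2 * (w * (w + 2)) * xQ0 + 8 * xC ^ 2 * (w * (w + 2)) * vE * xL * (w - 1) +
    4 * xC ^ 2 * xB21 w * (w - 1) ^ 2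

/-- The value at `v = w` with the negative coefficient. -/
def xEnd2 (w : Expr) : Expr :=
  2 * vE ^ 2 * (w + 2) * xQ0 + 8 * xC ^ 2 * (w + 2) * vE * xL * (w - 1) +
    4 * xC ^ 2 * xB22 w * (w - 1) ^ 2

/-- The slope in `e` of the bound of `v` up to `y = 11 / 5`. -/
def xBeta : Expr :=
  .frac 3015 100 + vY * (.frac 2236 100 + vY * (.frac 469 100 + .frac 269 100 * vY))

/-- The bound of `v` up to `y = 11 / 5`. -/
def xV : Expr := 1 + vE * xBeta

/-- The value at `v = xV`, over `e ^ 2`. -/
def xEndLow : Expr :=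
  2 * (xV * (xV + 2)) * xQ0 + 8 * xC ^ 2 * (xV * (xV + 2)) * xL * xBeta +
    4 * xC ^ 2 * xB21 xV * xBeta ^ 2

/-- The value at `v = xV` with the negative coefficient, over `e ^ 2`. -/
def xEndLow2 : Expr :=
  2 * (xV + 2) * xQ0 + 8 * xC ^ 2 * (xV + 2) * xL * xBeta +
    4 * xC ^ 2 * xB22 xV * xBeta ^ 2

/-- An affine bound of `v`. -/
def xW1 : Expr := .frac 1137 1000 + .frac 1208 10000 * vY + vE * (.frac 657 10 + .frac 1140 100 * vY)

/-- An affine bound of `v`. -/
def xW2 : Expr := .frac 1296 1000 + .frac 958 10000 * vY + vE * (.frac 626 10 + .frac 1186 100 * vY)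

/-- An affine bound of `v`. -/
def xW3 : Expr := .frac 1604 1000 + .frac 717 10000 * vY + vE * (.frac 295 10 + .frac 1440 100 * vY)

/-- An affine bound of `v`. -/
def xW4 : Expr := .frac 1966 1000 + .frac 564 10000 * vY + vE * (.frac (-103) 1 + .frac 1998 100 * vY)

/-- An affine bound of `v`. -/
def xW5 : Expr := .frac 440 100 + .frac 244 10000 * vY + vE * (.frac (-249) 1 + .frac 2067 100 * vY)

/-- An upper bound of `exp ell`. -/
def xE : Expr := 1 + .frac 1452 100 * vE

/-- The bound of `v` at the abscissa of the circle, cleared. -/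
def xVok : Expr :=
  xV * xC - xE * (xC + .frac 27 2 * vE *
    ((1 + .frac 256 1000 * vY + .frac 1 2 * (.frac 256 1000 * vY) ^ 2 +
        .frac 1 6 * (.frac 256 1000 * vY) ^ 3 + .frac 5 96 * (.frac 256 1000 * vY) ^ 4) ^ 2 *
      (1 - .frac 1 6 * vY + .frac 1 40 * vY ^ 2 - .frac 1 336 * vY ^ 3 + .frac 1 3456 * vY ^ 4)) *
    (vY + 2 * xZ + 1))

/-- The bound of `v` by the hazard, squared and cleared. -/
def xWok (w : Expr) : Expr :=
  w ^ 2 * xC ^ 2 * vY -
    (xE * (.frac 64566 100000 + .frac 2527 100 * vE) * (vY + 2 * xZ + 1)) ^ 2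

/-- A variable change to `z = y e` and `om = 35 / y`, with the power of `om`. -/
def far : Expr → Expr × ℕ
  | .num c => (.num c, 0)
  | .frac c d => (.frac c d, 0)
  | .var i => if i = 0 then (35, 1) else (.frac 1 35 * .var 0 * .var 1, 0)
  | .add a b => (.add ((far a).1 * .var 1 ^ ((far b).2 - (far a).2))
      ((far b).1 * .var 1 ^ ((far a).2 - (far b).2)), max (far a).2 (far b).2)
  | .sub a b => (.sub ((far a).1 * .var 1 ^ ((far b).2 - (far a).2))
      ((far b).1 * .var 1 ^ ((far a).2 - (far b).2)), max (far a).2 (far b).2)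
  | .neg a => (.neg (far a).1, (far a).2)
  | .mul a b => (.mul (far a).1 (far b).1, (far a).2 + (far b).2)
  | .pow a k => (.pow (far a).1 k, (far a).2 * k)

theorem far_eval (a : Expr) {y e z om : ℝ} (hy : y * om = 35) (he : e = 1 / 35 * z * om) :
    a.ok 2 = true → (far a).1.eval [z, om] = om ^ (far a).2 * a.eval [y, e] := by
  induction a with
  | num c => simp [far, Expr.eval]
  | frac c d => simp [far, Expr.eval]
  | var i =>
    intro h
    simp only [Expr.ok, decide_eq_true_eq] at h
    rcases i with _ | _ | i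
    · simp [far, Expr.eval, ← hy, mul_comm]
    · simp [far, Expr.eval, he]
    · omega
  | add a b iha ihb =>
    intro h
    simp only [Expr.ok, Bool.and_eq_true] at h
    show (far a).1.eval [z, om] * om ^ ((far b).2 - (far a).2) +
      (far b).1.eval [z, om] * om ^ ((far a).2 - (far b).2) =
      om ^ max (far a).2 (far b).2 * (a.eval [y, e] + b.eval [y, e])
    rw [iha h.1, ihb h.2, mul_add, mul_right_comm, ← pow_add, mul_right_comm (om ^ _) (b.eval _),
      ← pow_add, show (far a).2 + ((far b).2 - (far a).2) = max (far a).2 (far b).2 by omega,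
      show (far b).2 + ((far a).2 - (far b).2) = max (far a).2 (far b).2 by omega]
  | sub a b iha ihb =>
    intro h
    simp only [Expr.ok, Bool.and_eq_true] at h
    show (far a).1.eval [z, om] * om ^ ((far b).2 - (far a).2) -
      (far b).1.eval [z, om] * om ^ ((far a).2 - (far b).2) =
      om ^ max (far a).2 (far b).2 * (a.eval [y, e] - b.eval [y, e])
    rw [iha h.1, ihb h.2, mul_sub, mul_right_comm, ← pow_add, mul_right_comm (om ^ _) (b.eval _),
      ← pow_add, show (far a).2 + ((far b).2 - (far a).2) = max (far a).2 (far b).2 by omega,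
      show (far b).2 + ((far a).2 - (far b).2) = max (far a).2 (far b).2 by omega]
  | neg a ih =>
    intro h
    simp only [Expr.ok] at h
    show -(far a).1.eval [z, om] = om ^ (far a).2 * -a.eval [y, e]
    rw [ih h, mul_neg]
  | mul a b iha ihb =>
    intro h
    simp only [Expr.ok, Bool.and_eq_true] at h
    show (far a).1.eval [z, om] * (far b).1.eval [z, om] =
      om ^ ((far a).2 + (far b).2) * (a.eval [y, e] * b.eval [y, e])
    rw [iha h.1, ihb h.2, pow_add]
    ring
  | pow a k ih =>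
    intro h
    simp only [Expr.ok] at h
    show (far a).1.eval [z, om] ^ k = om ^ ((far a).2 * k) * a.eval [y, e] ^ k
    rw [ih h, mul_pow, pow_mul]

/-- A test on `[lo / den, hi / den] × [0, 1 / 99]`. -/
def onBox (a : Expr) (lo hi : ℤ) (den : ℕ) (T : Tree) : Bool :=
  certify false a [⟨lo, hi, den⟩, ⟨0, 1, 99⟩] T

theorem onBox_nonneg {a : Expr} {lo hi : ℤ} {den : ℕ} {T : Tree} (h : onBox a lo hi den T = true)
    {y e : ℝ} (h1 : (lo : ℝ) ≤ den * y) (h2 : (den : ℝ) * y ≤ hi) (he0 : 0 ≤ e)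
    (he : e ≤ 1 / 99) : 0 ≤ a.eval [y, e] :=
  nonneg_of_certify h ⟨by simpa using h1, by simpa using h2, by simpa using he0,
    by simp; linarith, trivial⟩

/-- A test for `35 ≤ y`, `y e ≤ 354 / 1000`. -/
def onFar (a : Expr) (T : Tree := .leaf) : Bool :=
  a.ok 2 && certify false (far a).1 [⟨0, 354, 1000⟩, ⟨0, 1, 1⟩] T

theorem onFar_nonneg {a : Expr} {T : Tree} (h : onFar a T = true) {y e : ℝ} (hy : 35 ≤ y) (he0 : 0 ≤ e)
    (hz : y * e ≤ 354 / 1000) : 0 ≤ a.eval [y, e] := by
  simp only [onFar, Bool.and_eq_true] at h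
  have hy0 : 0 < y := by linarith
  have hom : 0 < 35 / y := by positivity
  have h1 : (far a).1.eval [y * e, 35 / y] = (35 / y) ^ (far a).2 * a.eval [y, e] :=
    far_eval a (by field_simp) (by field_simp) h.1
  have h2 := nonneg_of_certify h.2 (x := [y * e, 35 / y]) ⟨by simp; positivity, by simp; linarith,
    by simp; positivity, by simp; rw [div_le_one hy0]; exact hy, trivial⟩
  rw [h1] at h2
  exact nonneg_of_mul_nonneg_right (by linarith) (pow_pos hom _)

end Vale.Agent.P237.Petty.Cor.MidHigh
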